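import Crest.Agent.N222.B.Defs2
import Crest.Agent.N222.F.Lip

/-!
# Row 222, limit block (helper18): L5, regular at one height is regular at all heights
-/

set_option autoImplicit false
open MeasureTheory Set Filter Topology Function Metric
open scoped ContDiff InnerProductSpace RealInnerProductSpace

noncomputable section

namespace Crest.Agent.N222

theorem allHt_of (hC : CylStmt) (hB : BoxStmt) (hF : FL2Stmt) (hW : W2Stmt) : AllHtStmt := by
  intro m ι _ _ X _ _ _ _ _ _ M F h Λ 𝒰 u τ s hM hFs hq p hp t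
  obtain ⟨t0, ht0⟩ : ∃ t0, M.Reg 𝒰 u p t0 := by
    by_contra! H
    exact hp.2 ⟨hp.1, H⟩
  obtain ⟨e, ρ, c, B⟩ := hB m ι X M F h Λ 𝒰 u τ s hM hFs hq p hp.1 t0 ht0
  obtain ⟨f, hf, hfe⟩ : ∃ f : X → ℝ, M.Sm f ∧ ∀ᶠ q in 𝓝 p, f q = e q 0 :=
    ((Imm.smOn_chart B.ch).comp (g := fun z => z 0) fun _ _ =>
      (EuclideanSpace.proj (𝕜 := ℝ) (0 : Fin (m + 1))).contDiff.contDiffAt).exists_sm_at
      e.open_source B.mem
  have hg : 0 < ‖M.grad f p‖ := norm_pos_iff.2 fun h0 => by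
    have h1 : f ∘ e.symm =ᶠ[𝓝 (e p)] EuclideanSpace.proj (𝕜 := ℝ) (0 : Fin (m + 1)) :=
      (symm_eventuallyEq B.mem hfe).trans
        ((e.open_target.eventually_mem (e.map_source B.mem)).mono fun z hz => by
          simp [e.right_inv hz])
    have h2 := congrArg (fun T : E (Fin (m + 1)) →L[ℝ] ℝ => T (ee 0)) (Imm.fderiv_chart f B.ch B.mem)
    rw [h1.fderiv_eq, ContinuousLinearMap.fderiv] at h2
    simp [Imm.td_eq_inner, h0] at h2
  set n := ‖M.grad f p‖⁻¹ • M.grad f p with hn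
  have hn1 : ‖n‖ = 1 := norm_smul_inv_norm (norm_pos_iff.1 hg)
  have hup : ∀ y : E ι, ‖up 0 y‖ = ‖y‖ := fun y =>
    (sq_eq_sq₀ (norm_nonneg _) (norm_nonneg _)).1 (by rw [norm_sq_up]; ring)
  have hN : ∀ᶠ q in 𝓝 p, 1 / 2 ≤ ‖M.PL q n‖ :=
    ((M.sm_PL.continuous.clm_apply continuous_const).norm.tendsto p).eventually_const_le
      (by rw [hn, map_smul, Imm.PL_grad, ← hn, hn1]; norm_num)
  obtain ⟨r1, hr1, h1⟩ := (Imm.mem_nhds_iff_ball hM).1
    (((e.open_source.eventually_mem B.mem).and hfe).and hN)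
  obtain ⟨ε, θ, C, hε, hθ, hW'⟩ := hW _ ι X M F hM hFs Λ (1 / 100) (by norm_num)
  obtain ⟨R, η, hR, hη, hF'⟩ := hF _ ι X M F hM hFs Λ ε hε
  obtain ⟨C1, hC1, hT⟩ := hf.exists_taylor hM
  have hev : ∀ A b : ℝ, 0 < b → ∀ᶠ r in 𝓝[>] (0 : ℝ), A * r < b := fun A b hb =>
    ((tendsto_id.mono_left nhdsWithin_le_nhds).const_mul A).eventually_lt_const (by simpa using hb)
  obtain ⟨r, ⟨⟨⟨r2, r3⟩, r4⟩, r5⟩, hr⟩ := (((((hev 1 ε hε).and (hev 1 η hη)).and
    (hev (R + 1) r1 hr1)).and (hev (C1 * (R + 1) ^ 2) (η * ‖M.grad f p‖ / 4) (by positivity))).and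
    self_mem_nhdsWithin).exists
  replace hr : 0 < r := hr
  rw [one_mul] at r2 r3
  have hK : IsCompact {q | ‖M.x q - M.x p‖ ≤ (R + 1) * r ∧ η * r * ‖M.grad f p‖ / 4 ≤ |f q|} :=
    ((isClosed_le (M.continuous_x.sub continuous_const).norm continuous_const).inter
      (isClosed_le continuous_const hf.continuous.abs)).isCompact
  have hev2 : ∀ᶠ j in (𝒰 : Filter ℕ), ∀ q ∈ {q | ‖M.x q - M.x p‖ ≤ (R + 1) * r ∧
      η * r * ‖M.grad f p‖ / 4 ≤ |f q|}, |t| + (R + 1) * r < |u j q| := by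
    refine hK.induction_on
      (p := fun S => ∀ᶠ j in (𝒰 : Filter ℕ), ∀ q ∈ S, |t| + (R + 1) * r < |u j q|) (by simp)
      (fun S S' hS h => h.mono fun j hj q hq => hj q (hS hq))
      (fun S S' h h' => (h.and h').mono fun j hj q hq => hq.elim (hj.1 q) (hj.2 q)) fun q hq' => ?_
    obtain ⟨⟨q1, q2⟩, -⟩ := h1 q (hq'.1.trans_lt r4)
    obtain ⟨N, hN, h⟩ := (hC m ι X M F h Λ 𝒰 u τ s hM hFs hq).2 q (fun hS => by
      have h2 := hq'.2
      rw [q2, (B.slice q q1).1 hS, abs_zero] at h2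
      exact h2.not_gt (by positivity)) (|t| + (R + 1) * r)
    exact ⟨N, mem_nhdsWithin_of_mem_nhds hN, h⟩
  refine ⟨θ * r, C / r ^ 2, by positivity, hev2.mono fun j hj q q' h2 h3 => ?_⟩
  suffices H : M.Flat ε (u j) (up t (M.x p)) r by
    have := hW' _ (hq.adm j) _ r hr r2.le H q q' h2 h3
    exact ⟨by rw [le_div_iff₀ (by positivity), mul_comm]; exact this.1, this.2⟩
  have hA : ∀ q, ‖M.gx (u j) q - up t (M.x p)‖ ≤ (R + 1) * r → ‖M.x q - M.x p‖ ≤ (R + 1) * r ∧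
      |⟪M.grad f p, M.x q - M.x p⟫ + f p| ≤ η * r * ‖M.grad f p‖ / 2 := fun q hq => by
    have a1 := (Imm.norm_x_sub_le (u j) q _).trans hq
    have a2 := (Imm.abs_u_sub_le (u j) q _).trans hq
    rw [down_up] at a1
    rw [up_none] at a2
    have a3 : |f q| < η * r * ‖M.grad f p‖ / 4 := not_le.1 fun h =>
      (hj q ⟨a1, h⟩).not_ge (by linarith [abs_sub_abs_le_abs_sub (u j q) t])
    have a4 := (hT p q).trans (mul_le_mul_of_nonneg_left
      (pow_le_pow_left₀ (norm_nonneg _) a1 2) hC1.le)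
    rw [Imm.td_eq_inner, Real.norm_eq_abs] at a4
    have a5 := mul_le_mul_of_nonneg_right r5.le hr.le
    refine ⟨a1, abs_le.2 ⟨?_, ?_⟩⟩ <;> linarith [abs_le.1 a4, abs_lt.1 a3]
  intro q hq'
  have b1 := hA q (hq'.le.trans (by nlinarith))
  refine hF' _ (hq.adm j) q r hr r3.le (up 0 n) ((hup n).trans hn1) ?_ fun q' hq'' => ?_
  · rw [Imm.PbL, up_none, down_up, hup]
    exact (h1 q (b1.1.trans_lt r4)).2
  have b2 := hA q' (by
    linarith [norm_sub_le_norm_sub_add_norm_sub (M.gx (u j) q') (M.gx (u j) q) (up t (M.x p))])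
  rw [Imm.gx, Imm.gx, up_sub, inner_up, zero_mul, zero_add, hn, real_inner_smul_left, abs_mul,
    abs_of_pos (inv_pos.2 hg), inv_mul_le_iff₀ hg, ← sub_sub_sub_cancel_right _ _ (M.x p),
    inner_sub_right]
  refine abs_le.2 ⟨?_, ?_⟩ <;> linarith [abs_le.1 b1.2, abs_le.1 b2.2]

end Crest.Agent.N222

end
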