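import Crest.Agent.N222.L.Cv3

/-!
# Row 222, limit block (helper18): the integral over the cylinder in a slice chart (Fubini)
-/

set_option autoImplicit false
open MeasureTheory Set Filter Topology Function Metric
open scoped ContDiff InnerProductSpace RealInnerProductSpace

noncomputable section

namespace Crest.Agent.N222.Lm

variable {m : ℕ} {ι : Type} [Fintype ι] [DecidableEq ι] {X : Type} [TopologicalSpace X]
  [T2Space X] [SecondCountableTopology X] [MeasurableSpace X] [BorelSpace X]

namespace C4

/-- `cons0` as a measurable equivalence -/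
def consE (m : ℕ) : ℝ × E (Fin m) ≃ᵐ E (Fin (m + 1)) where
  toFun q := cons0 q.1 q.2
  invFun z := (z 0, tail0 z)
  left_inv _ := rfl
  right_inv := cons0_tail0
  measurable_toFun := contDiff_cons0.continuous.measurable
  measurable_invFun := ((by fun_prop : Continuous fun z : E (Fin (m + 1)) => z 0).prodMk
    contDiff_tail0.continuous).measurable

theorem mp_cons (m : ℕ) : MeasurePreserving (consE m) := by
  have h := ((MeasurePreserving.id (volume : Measure ℝ)).prod
    (PiLp.volume_preserving_toLp (Fin m))).comp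
      ((volume_preserving_piFinSuccAbove (fun _ : Fin (m + 1) => ℝ) 0).comp
        (PiLp.volume_preserving_ofLp (Fin (m + 1))))
  exact MeasurePreserving.symm (consE m).symm h

theorem rep_eq (z : E (Fin (m + 1))) : rep z 0 = cons0 0 (tail0 z) := by
  ext i; refine Fin.cases ?_ (fun i => ?_) i <;> simp

end C4

theorem integral_cons0 {f : E (Fin (m + 1)) → ℝ} (hf : Integrable f) (t : ℝ) :
    ∫ z, f z = ∫ y : E (Fin m), ∫ s : ℝ, f (cons0 (s - t) y) := by
  have h1 := (C4.mp_cons m).integral_comp' f
  have h2 : Integrable (fun q : ℝ × E (Fin m) => f (cons0 q.1 q.2)) (volume.prod volume) :=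
    ((C4.mp_cons m).integrable_comp_emb (C4.consE m).measurableEmbedding).2 hf
  rw [← h1]
  refine (integral_prod_symm _ h2).trans ?_
  exact integral_congr_ae (Eventually.of_forall fun y =>
    (integral_sub_right_eq_self (fun s => f (cons0 s y)) t).symm)

theorem integral_cInt {M : Imm (m + 1) ι X} {Ψ : Dom X ι → ℝ} (hΨ : Continuous Ψ)
    {e : OpenPartialHomeomorph X (E (Fin (m + 1)))} (he : IsChart M.x e) {t ρ : ℝ}
    (hρ : closedBall 0 ρ ⊆ e.target) {S U : Set X} (hU : IsOpen U)
    (hS : ∀ q ∈ e.source ∩ U, q ∈ S ↔ e q 0 = 0) {N : Imm m ι S} (hN : ∀ q, N.x q = M.x q) (q0 : S)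
    (h0 : ∀ s, Ψ s ≠ 0 → s.1 ∈ e.source ∩ U ∧ ‖e s.1‖ < ρ / 2 ∧ |s.2.1 - t| < ρ / 2) :
    ∫ z in ball 0 ρ, cInt M Ψ e t z = ∫ q : S, (∫ s : ℝ, Ψ (q, s, N.cylP q, N.cylB q)) ∂N.mu := by
  obtain ⟨e', he', hs', ht', -, hsy⟩ := exists_sliceChart (he.restr hU) hS q0
  have heN : IsChart N.x e' := by rw [show N.x = fun q : S => M.x q from funext hN]; exact he'
  have hKO := C3.ball_sub hρ
  have hi : IntegrableOn (cInt M Ψ e t) (ball 0 ρ) :=
    (((continuousOn_cInt he hΨ t).mono hKO).integrableOn_compact
      (isCompact_closedBall 0 ρ)).mono_set ball_subset_closedBall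
  have hsup : support (fun q : S => ∫ s : ℝ, Ψ (q, s, N.cylP q, N.cylB q)) ⊆ e'.source := by
    intro q hq
    by_contra h
    refine hq (integral_eq_zero_of_ae (Eventually.of_forall fun s => ?_))
    by_contra h'
    exact h (hs' ▸ (h0 _ h').1)
  rw [Imm.integral_chart heN hsup, ← integral_indicator measurableSet_ball,
    ← integral_indicator e'.open_target.measurableSet,
    integral_cons0 ((integrable_indicator_iff measurableSet_ball).2 hi) t]
  refine integral_congr_ae (Eventually.of_forall fun y => ?_)
  beta_reduce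
  by_cases hy : y ∈ e'.target
  · rw [indicator_of_mem hy, smul_eq_mul, ← integral_const_mul]
    refine integral_congr_ae (Eventually.of_forall fun s => ?_)
    beta_reduce
    have hy' : cons0 0 y ∈ e.target := by
      have := hy
      rw [ht'] at this
      exact this.1
    have hy2 : tail0 (cons0 (s - t) y) ∈ e'.target := hy
    have hr : rep (cons0 (s - t) y) 0 = cons0 0 y := C4.rep_eq _
    by_cases hz : cons0 (s - t) y ∈ ball (0 : E (Fin (m + 1))) ρ
    · have hψ : cyl M e t =ᶠ[𝓝 (cons0 (s - t) y)] lift t fun w => N.x (e'.symm (tail0 w)) := by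
        filter_upwards [contDiff_tail0.continuous.continuousAt.preimage_mem_nhds
          (e'.open_target.mem_nhds hy2)] with w hw
        simp only [cyl, lift, hN, hsy _ hw, C4.rep_eq]
        rfl
      rw [indicator_of_mem hz, cInt, jac_cyl heN hy2 hψ, PJ_cyl heN hy2 hψ, BJ_cyl heN hy2 hψ, hr,
        hsy y hy, cons0_zero, add_sub_cancel]
      rfl
    · rw [indicator_of_notMem hz]
      refine (mul_eq_zero_of_right _ ?_).symm
      by_contra h
      obtain ⟨-, h1, h2⟩ := h0 _ h
      have h3 : e (e'.symm y) = cons0 0 y := by rw [hsy y hy]; exact e.right_inv hy'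
      have h4 := norm_rep_le (cons0 (s - t) y) (s - t)
      rw [hr, show rep (cons0 (s - t) y) (s - t) = cons0 (s - t) y from rep_self _] at h4
      dsimp only at h1 h2
      rw [h3] at h1
      exact hz (mem_ball_zero_iff.2 (by linarith))
  · rw [indicator_of_notMem hy]
    refine integral_eq_zero_of_ae (Eventually.of_forall fun s => ?_)
    by_cases hz : cons0 (s - t) y ∈ ball (0 : E (Fin (m + 1))) ρ
    · beta_reduce
      rw [indicator_of_mem hz]
      refine mul_eq_zero_of_right _ ?_
      by_contra h
      have h1 := (h0 _ h).1.2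
      have h2 := hKO (ball_subset_closedBall hz)
      have hr : rep (cons0 (s - t) y) 0 = cons0 0 y := C4.rep_eq _
      rw [mem_ofPred_eq, hr] at h2
      dsimp only at h1
      rw [hr] at h1
      exact hy (ht' ▸ (⟨h2, h1⟩ : cons0 0 y ∈ (e.restrOpen U hU).target))
    · exact indicator_of_notMem hz _

end Crest.Agent.N222.Lm

end
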