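import Crest.Agent.N222.L.Cv2
import Crest.Agent.N222.L.Cv4
import Crest.Agent.N222.F.Graph

/-!
# Row 222, limit block (helper18): L6, convergence of curvature integrals (typed by helper31)
-/

set_option autoImplicit false
set_option linter.unusedSectionVars false
open MeasureTheory Set Filter Topology Function Metric
open scoped ContDiff InnerProductSpace RealInnerProductSpace

noncomputable section

namespace Crest.Agent.N222

namespace Cv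

open Lm

variable {m : ℕ} {ι : Type} [Fintype ι] [DecidableEq ι] {X : Type} [TopologicalSpace X]
  [T2Space X] [SecondCountableTopology X] [MeasurableSpace X] [BorelSpace X] [CompactSpace X]

theorem isOpen_Upos (𝒰 : Ultrafilter ℕ) (u : ℕ → X → ℝ) : IsOpen (Upos 𝒰 u) :=
  isOpen_iff_mem_nhds.2 fun _ ⟨N, hN, h⟩ =>
    mem_of_superset (eventually_mem_nhds_iff.2 hN) fun _ hq => ⟨N, hq, h⟩

theorem isClosed_Sb (𝒰 : Ultrafilter ℕ) (u : ℕ → X → ℝ) : IsClosed (Sb 𝒰 u) :=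
  ((isOpen_Upos _ _).union (isOpen_Upos _ _)).isClosed_compl

theorem integrable_gInt {M : Imm (m + 1) ι X} {Ψ : Dom X ι → ℝ} (hΨ : Continuous Ψ) {u : X → ℝ}
    (hu : M.Sm u) : Integrable (gInt M Ψ u) (M.gmu u) := by
  have := Imm.isFiniteMeasure_gmu hu
  refine Continuous.integrable_of_hasCompactSupport ?_ (HasCompactSupport.of_compactSpace _)
  unfold gInt
  rw [← Imm.graph_pre hu]
  exact hΨ.comp (continuous_id.prodMk (hu.continuous.prodMk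
    ((continuous_pi fun b => continuous_pi fun c => ((M.graph u hu).sm_P b c).continuous).prodMk
      (continuous_pi fun a => continuous_pi fun b => continuous_pi fun c =>
        (((M.graph u hu).sm_P b c).D a).continuous))))

theorem integrable_cyl {S K : Set X} (N : Imm m ι S) (hK : IsCompact (S ∩ K)) {T : ℝ}
    {Ψ : Dom X ι → ℝ} (hΨ : Continuous Ψ) (h0 : ∀ s, Ψ s ≠ 0 → s.1 ∈ K ∧ |s.2.1| ≤ T) :
    Integrable (fun z : S × ℝ => Ψ (z.1, z.2, N.cylP z.1, N.cylB z.1)) (N.mu.prod volume) := by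
  have h1 : Continuous N.cylP :=
    continuous_pi fun b => continuous_pi fun c => (N.sm_Pb b c).continuous
  have h2 : Continuous N.cylB := continuous_pi fun a => by
    cases a with
    | none => exact (continuous_const : Continuous fun _ : S => (fun _ _ => 0 : Option ι → Option ι → ℝ))
    | some a => exact continuous_pi fun b => continuous_pi fun c => ((N.sm_Pb b c).D a).continuous
  have h3 : IsCompact ((Subtype.val ⁻¹' K : Set S) ×ˢ Icc (-T) T) := by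
    refine IsCompact.prod ?_ isCompact_Icc
    rwa [Subtype.isCompact_iff, Subtype.image_preimage_coe]
  refine Continuous.integrable_of_hasCompactSupport (hΨ.comp (by fun_prop))
    (HasCompactSupport.intro h3 fun z hz => ?_)
  by_contra h
  exact hz ⟨(h0 _ h).1, abs_le.1 (h0 _ h).2⟩

/-- from local to global -/
theorem glue {K : Set X} (hK : IsCompact K) {T : ℝ} {P : (Dom X ι → ℝ) → Prop}
    (h0 : P fun _ => 0)
    (hadd : ∀ Ψ Ψ', Continuous Ψ → (∀ s, Ψ s ≠ 0 → s.1 ∈ K ∧ |s.2.1| ≤ T) → Continuous Ψ' →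
      (∀ s, Ψ' s ≠ 0 → s.1 ∈ K ∧ |s.2.1| ≤ T) → P Ψ → P Ψ' → P fun s => Ψ s + Ψ' s)
    (hloc : ∀ p ∈ K, ∀ t, ∃ O ∈ 𝓝 ((p, t) : X × ℝ), ∀ Ψ, Continuous Ψ →
      (∀ s, Ψ s ≠ 0 → s.1 ∈ K ∧ |s.2.1| ≤ T) → (∀ s, Ψ s ≠ 0 → (s.1, s.2.1) ∈ O) → P Ψ)
    {Ψ : Dom X ι → ℝ} (hΨ : Continuous Ψ) (hs : ∀ s, Ψ s ≠ 0 → s.1 ∈ K ∧ |s.2.1| ≤ T) : P Ψ := by
  have hc : IsCompact (K ×ˢ Icc (-T) T) := hK.prod isCompact_Icc
  have cm : ∀ {θ : X × ℝ → ℝ} {Ψ : Dom X ι → ℝ}, Continuous θ → Continuous Ψ →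
      Continuous fun s : Dom X ι => θ (s.1, s.2.1) * Ψ s := fun hθ hΨ =>
    (hθ.comp (by fun_prop)).mul hΨ
  obtain ⟨θ, hθ, hθ0, hpos, hP⟩ := hc.induction_on (p := fun A => ∃ θ : X × ℝ → ℝ, Continuous θ ∧
      (∀ z, 0 ≤ θ z) ∧ (∀ z ∈ A, 0 < θ z) ∧ ∀ Ψ, Continuous Ψ →
      (∀ s, Ψ s ≠ 0 → s.1 ∈ K ∧ |s.2.1| ≤ T) → P fun s => θ (s.1, s.2.1) * Ψ s)
    ⟨fun _ => 0, continuous_const, fun _ => le_rfl, fun _ h => h.elim, fun Ψ _ _ => by
      simpa using h0⟩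
    (fun A B hAB ⟨θ, h1, h2, h3, h4⟩ => ⟨θ, h1, h2, fun z hz => h3 z (hAB hz), h4⟩)
    (fun A B ⟨θ, h1, h2, h3, h4⟩ ⟨θ', h1', h2', h3', h4'⟩ => ⟨fun z => θ z + θ' z, h1.add h1',
      fun z => add_nonneg (h2 z) (h2' z), fun z hz => hz.elim
        (fun h => add_pos_of_pos_of_nonneg (h3 z h) (h2' z))
        fun h => add_pos_of_nonneg_of_pos (h2 z) (h3' z h), fun Ψ hΨ hs => by
      simp only [add_mul]
      exact hadd _ _ (cm h1 hΨ) (fun s h => hs s (right_ne_zero_of_mul h)) (cm h1' hΨ)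
        (fun s h => hs s (right_ne_zero_of_mul h)) (h4 Ψ hΨ hs) (h4' Ψ hΨ hs)⟩)
    (fun z hz => by
      obtain ⟨O, hO, h⟩ := hloc z.1 hz.1 z.2
      obtain ⟨f, f1, f0, -, f01⟩ := exists_continuous_one_zero_of_isCompact
        (isCompact_singleton (x := z)) (isOpen_interior (s := O)).isClosed_compl
        (disjoint_singleton_left.2 fun h => h (mem_interior_iff_mem_nhds.2 hO))
      refine ⟨{y | 0 < f y}, mem_nhdsWithin_of_mem_nhds
        ((isOpen_lt continuous_const f.continuous).mem_nhds (by simp [f1 rfl])), f, f.continuous,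
        fun y => (f01 y).1, fun y hy => hy, fun Ψ hΨ hs => h _ (cm f.continuous hΨ)
          (fun s h => hs s (right_ne_zero_of_mul h)) fun s h => interior_subset ?_⟩
      by_contra h'
      exact left_ne_zero_of_mul h (f0 h'))
  obtain ⟨a, ha, hle⟩ := hc.exists_forall_le' hθ.continuousOn hpos
  have hm : ∀ z, max (θ z) a ≠ 0 := fun z => (lt_max_of_lt_right ha).ne'
  have := hP (fun s => (max (θ (s.1, s.2.1)) a)⁻¹ * Ψ s)
    (cm ((hθ.max continuous_const).inv₀ hm) hΨ) fun s h => hs s (right_ne_zero_of_mul h)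
  convert this using 2 with s
  by_cases h : Ψ s = 0
  · simp [h]
  · have h1 := hle (s.1, s.2.1) ⟨(hs s h).1, abs_le.1 (hs s h).2⟩
    rw [max_eq_left h1, mul_inv_cancel_left₀ (ha.trans_le h1).ne']

end Cv

open Cv Lm in
theorem conv_of (hC : CylStmt) (hN : NetStmt) (hB : BoxStmt) (hA : AllHtStmt) : ConvStmt := by
  intro m ι _ _ X _ _ _ _ _ _ M F h Λ 𝒰 u τ s hinj hF hseq
  have hC := (hC m ι X M F h Λ 𝒰 u τ s hinj hF hseq).2
  have hU := (hN m ι X M F h Λ 𝒰 u τ s hinj hF hseq).1.isOpen_compl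
  have hB := hB m ι X M F h Λ 𝒰 u τ s hinj hF hseq
  have hA := hA m ι X M F h Λ 𝒰 u τ s hinj hF hseq
  have hu : ∀ j, M.Sm (u j) := fun j => (hseq.adm j).sm
  have hsl : ∀ {p t e ρ c}, Box M 𝒰 u p t e ρ c → ∀ q ∈ e.source ∩ (M.Bad 𝒰 u)ᶜ,
      q ∈ M.Sig 𝒰 u ↔ e q 0 = 0 := fun B q hq =>
    ⟨fun h => (B.slice q hq.1).1 h.1, fun h => ⟨(B.slice q hq.1).2 h, hq.2⟩⟩
  have hch : ∀ q ∈ M.Sig 𝒰 u, ∃ e : OpenPartialHomeomorph X (E (Fin (m + 1))), IsChart M.x e ∧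
      q ∈ e.source ∧ ∀ p ∈ e.source, p ∈ M.Sig 𝒰 u ↔ e p 0 = 0 := fun q hq => by
    obtain ⟨e, ρ, c, B⟩ := hB q hq.1 0 (hA q hq 0)
    exact ⟨e.restrOpen _ hU, B.ch.restr hU, ⟨B.mem, hq.2⟩, hsl B⟩
  obtain ⟨N, hNx⟩ := M.exists_slice hch
  refine ⟨N, hNx, fun z hz => ?_, fun Ψ K T hΨ hK hd hs => ?_⟩
  · obtain ⟨z', h1, h2, h3⟩ := exists_ext hU (fun q hq => hq.2) hch hNx hz
    exact ⟨z', h1, subset_compl_iff_disjoint_right.1 h2, h3⟩
  have hK' : IsCompact (M.Sig 𝒰 u ∩ K) := by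
    have : M.Sig 𝒰 u ∩ K = Sb 𝒰 u ∩ K := Set.ext fun q =>
      ⟨fun h => ⟨h.1.1, h.2⟩, fun h => ⟨⟨h.1, disjoint_left.1 hd h.2⟩, h.2⟩⟩
    rw [this]
    exact hK.inter_left (Cv.isClosed_Sb _ _)
  refine glue (P := fun Ψ => Tendsto (fun j => ∫ q, gInt M Ψ (u j) q ∂M.gmu (u j)) 𝒰
    (𝓝 (∫ q : M.Sig 𝒰 u, (∫ t : ℝ, Ψ (q, t, N.cylP q, N.cylB q)) ∂N.mu))) hK (by simp [gInt])
    (fun Ψ Ψ' h1 h2 h1' h2' h3 h3' => ?_) (fun p hp t => ?_) hΨ hs
  · rw [integral_integral_add (integrable_cyl N hK' h1 h2) (integrable_cyl N hK' h1' h2')]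
    exact (h3.add h3').congr fun j =>
      (integral_add (integrable_gInt h1 (hu j)) (integrable_gInt h1' (hu j))).symm
  by_cases hp' : p ∈ Sb 𝒰 u
  · have hq : p ∈ M.Sig 𝒰 u := ⟨hp', disjoint_left.1 hd hp⟩
    obtain ⟨e, ρ, c, B⟩ := hB p hp' t (hA p hq t)
    obtain ⟨N0, hN0, δ, hδ, hcov⟩ := B.cover
    have hρ := half_pos B.pos
    have h1 : {q | ‖e q‖ < ρ / 2} ∈ 𝓝 p :=
      (e.continuousAt B.mem).norm.eventually_lt_const (by simpa [B.zero] using B.pos)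
    refine ⟨(N0 ∩ ((e.source ∩ (M.Bad 𝒰 u)ᶜ) ∩ {q | ‖e q‖ < ρ / 2})) ×ˢ ball t (min δ (ρ / 2)),
      prod_mem_nhds (inter_mem hN0 (inter_mem ((e.open_source.inter hU).mem_nhds ⟨B.mem, hq.2⟩) h1))
        (ball_mem_nhds t (lt_min hδ hρ)), fun Ψ hΨ _ hO => ?_⟩
    rw [← integral_cInt hΨ B.ch B.sub hU (hsl B) hNx ⟨p, hq⟩ fun s h =>
      ⟨(hO s h).1.2.1, (hO s h).1.2.2, (lt_min_iff.1 (hO s h).2).2⟩]
    exact tendsto_box hinj hu B hΨ (hcov.mono fun j hj q h =>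
      (hj q (hO _ h).1.1 (lt_min_iff.1 (hO _ h).2).1).1)
  · obtain ⟨N0, hN0, hev⟩ := hC p hp' T
    refine ⟨(N0 ∩ (Sb 𝒰 u)ᶜ) ×ˢ univ, prod_mem_nhds (inter_mem hN0
      ((Cv.isClosed_Sb _ _).isOpen_compl.mem_nhds hp')) univ_mem, fun Ψ _ hs hO => ?_⟩
    have e1 : ∀ (q : M.Sig 𝒰 u) (t : ℝ), Ψ (q, t, N.cylP q, N.cylB q) = 0 := fun q t => by
      by_contra h
      exact (hO _ h).1.2 q.2.1
    simp only [e1, integral_zero]
    refine tendsto_const_nhds.congr' (hev.mono fun j hj => ?_)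
    have e2 : ∀ q, gInt M Ψ (u j) q = 0 := fun q => by
      by_contra h
      exact (hj q (hO _ h).1.1).not_ge (hs _ h).2
    simp only [e2, integral_zero]

end Crest.Agent.N222

end
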