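import Crest.Agent.N222.B.Defs2
import Crest.Agent.N222.B.E1
import Crest.Agent.N222.F.Lip
import Crest.Agent.N222.F.Ker

/-!
# Row 222, limit block (helper18): L2, the limit is a cylinder
-/

set_option autoImplicit false
open MeasureTheory Set Filter Topology Function Metric
open scoped ContDiff InnerProductSpace RealInnerProductSpace

noncomputable section

namespace Crest.Agent.N222

namespace Lm

namespace Cy

/-- the integrand of the calibration inequality for a ball kernel -/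
def G {V : Type} [NormedAddCommGroup V] [InnerProductSpace ℝ V] (ρ C : ℝ) (y0 y : V) : ℝ :=
  ‖fderiv ℝ (fun y => Phi (‖y - y0‖ ^ 2 / ρ ^ 2)) y‖ + C * Phi (‖y - y0‖ ^ 2 / ρ ^ 2)

theorem G_nonneg {V : Type} [NormedAddCommGroup V] [InnerProductSpace ℝ V] (ρ : ℝ) {C : ℝ}
    (hC : 0 ≤ C) (y0 y : V) : 0 ≤ G ρ C y0 y :=
  add_nonneg (norm_nonneg _) (mul_nonneg hC (Phi_nonneg _))

theorem G_zero {V : Type} [NormedAddCommGroup V] [InnerProductSpace ℝ V] {ρ : ℝ} (hρ : 0 < ρ)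
    (C : ℝ) {y0 y : V} (h : ρ < ‖y - y0‖) : G ρ C y0 y = 0 := by
  have h1 : (fun y => Phi (‖y - y0‖ ^ 2 / ρ ^ 2)) =ᶠ[𝓝 y] fun _ => 0 := by
    have : ∀ᶠ z in 𝓝 y, ρ < ‖z - y0‖ :=
      (continuous_id.sub continuous_const).norm.continuousAt.eventually (lt_mem_nhds h)
    filter_upwards [this] with z hz using EP.Phi_ball_zero hρ hz.le
  rw [G, h1.fderiv_eq, EP.Phi_ball_zero hρ h.le]
  simp

theorem exists_G_le {V : Type} [NormedAddCommGroup V] [InnerProductSpace ℝ V] [ProperSpace V]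
    {ρ : ℝ} (hρ : 0 < ρ) {C : ℝ} (hC : 0 ≤ C) :
    ∃ K : ℝ, 0 ≤ K ∧ ∀ y0 y : V, G ρ C y0 y ≤ K := by
  obtain ⟨K, hK⟩ := ((EP.contDiff_Phi_ball (0 : V) ρ).continuous_fderiv
    (by simp)).bounded_above_of_compact_support ((EP.hcs_Phi (0 : V) hρ).fderiv ℝ)
  refine ⟨K + C, add_nonneg ((norm_nonneg _).trans (hK 0)) hC, fun y0 y => ?_⟩
  have e : fderiv ℝ (fun y => Phi (‖y - y0‖ ^ 2 / ρ ^ 2)) y =
      fderiv ℝ (fun y : V => Phi (‖y - 0‖ ^ 2 / ρ ^ 2)) (y - y0) := by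
    rw [← fderiv_comp_sub]; simp only [sub_zero]
  rw [G, e]
  exact add_le_add (hK _) (mul_le_of_le_one_right hC (Phi_le_one _))

theorem inner_le {φ : ℝ → ℝ} {a ρ K : ℝ} (hρ : 0 < ρ) (hK : 0 ≤ K) (h0 : ∀ t, 0 ≤ φ t)
    (h1 : ∀ t, φ t ≤ K) (h2 : ∀ t, ρ < |t - a| → φ t = 0) (S : Set ℝ) :
    ∫ t in S, φ t ≤ K * (2 * ρ) := by
  have hi : Integrable ((Icc (a - ρ) (a + ρ)).indicator fun _ : ℝ => K) :=
    (integrableOn_const (by simp)).integrable_indicator measurableSet_Icc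
  calc ∫ t in S, φ t ≤ ∫ t in S, (Icc (a - ρ) (a + ρ)).indicator (fun _ : ℝ => K) t := by
        refine integral_mono_of_nonneg (.of_forall h0) hi.restrict (.of_forall fun t => ?_)
        by_cases ht : t ∈ Icc (a - ρ) (a + ρ)
        · simpa only [indicator_of_mem ht] using h1 t
        · rw [indicator_of_notMem ht]
          refine (h2 t ?_).le
          by_contra h
          rw [not_lt, abs_le] at h
          exact ht ⟨by linarith [h.1], by linarith [h.2]⟩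
    _ ≤ ∫ t, (Icc (a - ρ) (a + ρ)).indicator (fun _ : ℝ => K) t :=
        setIntegral_le_integral hi (.of_forall fun t => indicator_nonneg (fun _ _ => hK) t)
    _ = K * (2 * ρ) := by
        rw [integral_indicator measurableSet_Icc, setIntegral_const, Real.volume_real_Icc_of_le
          (by linarith), smul_eq_mul]
        ring

variable {d : ℕ} {ι : Type} [Fintype ι] [DecidableEq ι] {X : Type} [TopologicalSpace X]
  [T2Space X] [SecondCountableTopology X] [MeasurableSpace X] [BorelSpace X] [CompactSpace X]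

theorem side (M : Imm d ι X) {u : X → ℝ} (hu : Continuous u) (q : X) {ρ C K T : ℝ} (hρ : 0 < ρ)
    (hC : 0 ≤ C) (hK : 0 ≤ K) (hG : ∀ y0 y : E (Option ι), G ρ C y0 y ≤ K) (S : X → Set ℝ)
    (hS : ∀ p, MeasurableSet (S p))
    (h : ∀ p, ‖M.x p - M.x q‖ ≤ ρ → ∀ t ∈ S p, |t - u q| ≤ ρ → |u p| ≤ T) :
    ∫ p, (∫ t in S p, G ρ C (M.gx u q) (up t (M.x p))) ∂M.mu ≤
      K * (2 * ρ) * M.mu.real {p | |u p| ≤ T} := by
  have hm : MeasurableSet {p | |u p| ≤ T} := (isClosed_le hu.abs continuous_const).measurableSet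
  have hi : Integrable ({p | |u p| ≤ T}.indicator fun _ : X => K * (2 * ρ)) M.mu :=
    (integrable_const _).indicator hm
  have z1 : ∀ p t, ρ < |t - u q| → G ρ C (M.gx u q) (up t (M.x p)) = 0 := fun p t ht =>
    G_zero hρ C (ht.trans_le (abs_none_le (up t (M.x p) - M.gx u q)))
  have z2 : ∀ p t, ρ < ‖M.x p - M.x q‖ → G ρ C (M.gx u q) (up t (M.x p)) = 0 := fun p t ht =>
    G_zero hρ C (ht.trans_le (norm_down_le (up t (M.x p) - M.gx u q)))
  calc _ ≤ ∫ p, {p | |u p| ≤ T}.indicator (fun _ : X => K * (2 * ρ)) p ∂M.mu := by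
        refine integral_mono_of_nonneg
          (.of_forall fun p => integral_nonneg fun t => G_nonneg ρ hC _ _) hi
          (.of_forall fun p => ?_)
        by_cases hp : p ∈ {p | |u p| ≤ T}
        · simp only [indicator_of_mem hp]
          exact inner_le hρ hK (fun t => G_nonneg ρ hC _ _) (fun t => hG _ _) (z1 p) _
        · simp only [indicator_of_notMem hp]
          refine (setIntegral_eq_zero_of_forall_eq_zero fun t ht => ?_).le
          by_cases h1 : ‖M.x p - M.x q‖ ≤ ρ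
          · exact z1 p t (not_le.1 fun h2 => hp (h p h1 t ht h2))
          · exact z2 p t (not_le.1 h1)
    _ = _ := by rw [integral_indicator hm, setIntegral_const, smul_eq_mul, mul_comm]

end Cy

open Cy in
/-- KEY: near a point of bounded height the graphs go far up and far down. -/
theorem cyl_key (hS : SheetStmt) (hM : Mon2Stmt) (hC : CalStmt) :
    AllSeq fun _ _ _ _ _ _ _ _ _ _ _ M _ _ 𝒰 u => ∀ T r : ℝ, 0 < r →
      ∀ᶠ j in (𝒰 : Filter ℕ), ∀ q, |u j q| ≤ T →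
        (∃ q', ‖M.x q' - M.x q‖ < r ∧ u j q' < -T) ∧ ∃ q', ‖M.x q' - M.x q‖ < r ∧ T < u j q' := by
  intro m ι _ _ X _ _ _ _ _ _ M F h Λ 𝒰 u τ s hinj hF hseq T r hr
  obtain ⟨C1, -, h1⟩ := hS (m + 1) ι X M F hinj hF Λ
  obtain ⟨C2, hC2, h2⟩ := hC (m + 1) ι X M F hinj hF Λ
  have hρ : 0 < r / 2 := half_pos hr
  set ρ := r / 2 with hρdef
  have hρr : ρ < r := half_lt_self hr
  obtain ⟨K, hK, hG⟩ := exists_G_le (V := E (Option ι)) hρ hC2
  have hc : 0 < cPhi (m + 1) * ρ ^ (m + 1) / Real.exp (C1 * ρ) := by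
    have := EP.cPhi_pos (m + 1)
    positivity
  have hev := ((hseq.thin (T + ρ)).const_mul (K * (2 * ρ))).eventually
    (gt_mem_nhds (by simpa using hc))
  filter_upwards [hev] with j hj q hq
  have hu := (hseq.adm j).sm
  have low : cPhi (m + 1) * ρ ^ (m + 1) / Real.exp (C1 * ρ) ≤
      ∫ p, Phi (‖M.gx (u j) p - M.gx (u j) q‖ ^ 2 / ρ ^ 2) ∂M.gmu (u j) := by
    have := EP.gTh_low hM hinj hu (h1 _ (hseq.adm j)) q hρ
    rw [Imm.gTh, ← mul_div_assoc, le_div_iff₀ (by positivity)] at this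
    rw [div_le_iff₀ (Real.exp_pos _)]
    linarith
  obtain ⟨cal1, cal2⟩ := (h2 _ (hseq.adm j)).1 _ (EP.contDiff_Phi_ball (M.gx (u j) q) ρ)
    (EP.hcs_Phi _ hρ) fun y => Phi_nonneg _
  rw [abs_le] at hq
  constructor
  · by_contra hn
    push Not at hn
    have := side M hu.continuous q (T := T + ρ) hρ hC2 hK hG (fun p => Ioi (u j p))
      (fun _ => measurableSet_Ioi) fun p hp t ht h3 => by
        have h4 := hn p (hp.trans_lt hρr)
        have h5 : u j p < t := ht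
        rw [abs_le] at h3 ⊢
        constructor <;> linarith [h3.2, hq.2]
    exact absurd ((low.trans cal2).trans this) (not_le.2 hj)
  · by_contra hn
    push Not at hn
    have := side M hu.continuous q (T := T + ρ) hρ hC2 hK hG (fun p => Iic (u j p))
      (fun _ => measurableSet_Iic) fun p hp t ht h3 => by
        have h4 := hn p (hp.trans_lt hρr)
        have h5 : t ≤ u j p := ht
        rw [abs_le] at h3 ⊢
        constructor <;> linarith [h3.1, hq.1]
    exact absurd ((low.trans cal1).trans this) (not_le.2 hj)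

end Lm

theorem cyl_of (hS : SheetStmt) (hM : Mon2Stmt) (hC : CalStmt) : CylStmt := by
  intro m ι _ _ X _ _ _ _ _ _ M F h Λ 𝒰 u τ s hinj hF hseq
  have key := Lm.cyl_key hS hM hC m ι X M F h Λ 𝒰 u τ s hinj hF hseq
  have tri : ∀ {p q q' : X} {r : ℝ}, ‖M.x q - M.x p‖ < r / 2 → ‖M.x q' - M.x q‖ < r / 2 →
      ‖M.x q' - M.x p‖ < r := fun {p q q' r} h1 h2 => by
    linarith [norm_sub_le_norm_sub_add_norm_sub (M.x q') (M.x q) (M.x p)]
  constructor
  · intro p hp t N hN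
    haveI := M.locallyConnected
    obtain ⟨N1, h1, c1, s1⟩ := locallyConnectedSpace_iff_connected_subsets.1 inferInstance p N hN
    obtain ⟨r, hr, b1⟩ := (Imm.mem_nhds_iff_ball hinj).1 h1
    obtain ⟨N2, h2, c2, s2⟩ := locallyConnectedSpace_iff_connected_subsets.1 inferInstance p
      {q | ‖M.x q - M.x p‖ < r / 2} ((Imm.mem_nhds_iff_ball hinj).2 ⟨_, half_pos hr, fun _ h => h⟩)
    have hp1 : ¬ ∀ᶠ j in (𝒰 : Filter ℕ), ∀ q ∈ N2, 0 < u j q := fun h =>
      hp (Or.inl ⟨N2, h2, h⟩)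
    have hp2 : ¬ ∀ᶠ j in (𝒰 : Filter ℕ), ∀ q ∈ N2, 0 < -u j q := fun h =>
      hp (Or.inr ⟨N2, h2, h⟩)
    filter_upwards [Ultrafilter.eventually_not.2 hp1, Ultrafilter.eventually_not.2 hp2,
      key |t| (r / 2) (half_pos hr)] with j e1 e2 e3
    push Not at e1 e2
    obtain ⟨a, ha, ha0⟩ := e1
    obtain ⟨b, hb, hb0⟩ := e2
    have hu := (hseq.adm j).sm.continuous
    obtain ⟨q0, hq0, h0⟩ := c2.intermediate_value ha hb hu.continuousOn
      (⟨ha0, by linarith⟩ : (0 : ℝ) ∈ Icc (u j a) (u j b))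
    obtain ⟨⟨q1, d1, l1⟩, q2, d2, l2⟩ := e3 q0 (by rw [h0, abs_zero]; exact abs_nonneg t)
    obtain ⟨q, hq, ht⟩ := c1.intermediate_value (b1 q1 (tri (s2 hq0) d1))
      (b1 q2 (tri (s2 hq0) d2)) hu.continuousOn
      (⟨by linarith [neg_abs_le t], by linarith [le_abs_self t]⟩ : t ∈ Icc (u j q1) (u j q2))
    exact ⟨q, s1 hq, ht⟩
  · intro p hp T
    have hp' : p ∈ Upos 𝒰 u ∪ Upos 𝒰 fun j q => -u j q := not_not.1 hp
    have main : ∀ N ∈ 𝓝 p, (∀ᶠ j in (𝒰 : Filter ℕ), (∀ q ∈ N, 0 < u j q) ∨ ∀ q ∈ N, 0 < -u j q) →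
        ∃ N ∈ 𝓝 p, ∀ᶠ j in (𝒰 : Filter ℕ), ∀ q ∈ N, T < |u j q| := fun N hN he => by
      obtain ⟨r, hr, b⟩ := (Imm.mem_nhds_iff_ball hinj).1 hN
      refine ⟨{q | ‖M.x q - M.x p‖ < r / 2},
        (Imm.mem_nhds_iff_ball hinj).2 ⟨_, half_pos hr, fun _ h => h⟩, ?_⟩
      filter_upwards [he, key |T| (r / 2) (half_pos hr)] with j e1 e2 q hq
      by_contra hn
      obtain ⟨⟨q1, d1, l1⟩, q2, d2, l2⟩ := e2 q ((not_lt.1 hn).trans (le_abs_self T))
      rcases e1 with e1 | e1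
      · linarith [e1 q1 (b q1 (tri hq d1)), abs_nonneg T]
      · linarith [e1 q2 (b q2 (tri hq d2)), abs_nonneg T]
    rcases hp' with ⟨N, hN, he⟩ | ⟨N, hN, he⟩
    · exact main N hN (he.mono fun j h => Or.inl h)
    · exact main N hN (he.mono fun j h => Or.inr h)

end Crest.Agent.N222

end
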