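import Crest.Agent.N222.L.Lim1
import Crest.Agent.N222.B.Ind

/-!
# Row 222, limit block (helper18): L7, the slice
-/

set_option autoImplicit false
set_option linter.unusedSectionVars false
open MeasureTheory Set Filter Topology Function Metric
open scoped ContDiff InnerProductSpace RealInnerProductSpace

noncomputable section

namespace Crest.Agent.N222

namespace Lm

/-- stability of the graphs -/
theorem stab_graph (hP : PicStmt) {d : ℕ} {ι : Type} [Fintype ι] [DecidableEq ι] {X : Type}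
    [TopologicalSpace X] [T2Space X] [SecondCountableTopology X] [MeasurableSpace X] [BorelSpace X]
    [CompactSpace X] {M : Imm d ι X} {F h k u ζ : X → ℝ} {τ σ ε : ℝ} (hF : M.Sm F) (hh : M.Sm h)
    (hk : M.Sm k) (hu : M.Sm u) (hζ : M.Sm ζ) (hτ : 0 ≤ τ)
    (heq : ∀ p, M.hF F u p = τ * u p + σ - h p) (hhk : ∀ p, √(M.pre.gam h h p) ≤ k p)
    (hε : ∀ p, ζ p ≠ 0 → h p ^ 2 - ε ≤ M.hF F u p ^ 2) :
    0 ≤ ∫ p, (2 * (M.gS u).gam ζ ζ p + ((M.gS u).EF F p -
      (M.pre.EF F p + h p ^ 2 - 2 * k p) + ε) * ζ p ^ 2) * Real.exp (F p) ∂M.gmu u := by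
  have h1 := hP d (Option ι) X (M.graph u hu) F (M.vv u) ζ hF hu.vv (M.vv_pos u)
    ⟨hζ, HasCompactSupport.of_compactSpace _⟩
  have c1 := (Imm.Sm.gam (M := M.graph u hu) hζ hζ).continuous
  have c2 := (Imm.Sm.lapF (M := M.graph u hu) hF hu.vv).continuous
  have c3 := (Imm.Sm.EF (M := M.graph u hu) hF).continuous
  rw [Imm.graph_pre hu] at h1 c1 c2 c3
  rw [Imm.graph_mu hu] at h1
  have := Imm.isFiniteMeasure_gmu hu
  have ig : ∀ {f : X → ℝ}, Continuous f → Integrable f (M.gmu u) := fun hf =>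
    hf.integrable_of_hasCompactSupport (HasCompactSupport.of_compactSpace _)
  have cF := hF.exp.continuous
  have cζ := hζ.continuous
  have i1 := ig (c1.mul cF)
  have i2 := ig (((c2.neg.div hu.vv.continuous fun p => (M.vv_pos u p).ne').mul (cζ.pow 2)).mul cF)
  have h2 : 0 ≤ ∫ p, 2 * ((M.gS u).gam ζ ζ p * Real.exp (F p) -
      -(M.gS u).lapF F (M.vv u) p / M.vv u p * ζ p ^ 2 * Real.exp (F p)) ∂M.gmu u := by
    rw [integral_const_mul]
    exact mul_nonneg zero_le_two ((sub_nonneg.2 h1).trans_eq (integral_sub i1 i2).symm)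
  refine h2.trans (integral_mono ((i1.sub i2).const_mul 2) (ig ?_) fun p => ?_)
  · have c4 := hF.EF.continuous
    have c5 := hh.continuous
    have c6 := hk.continuous
    fun_prop
  have hdir : -k p ≤ M.pre.dir (M.Xf u) (M.hF F u) p := by
    have e' : M.hF F u = fun p => τ * u p + σ - h p := funext heq
    have s1 := (Imm.sm_const τ).mul hu
    have e1 : M.pre.dir (M.Xf u) (M.hF F u) p =
        τ * M.pre.dir (M.Xf u) u p - M.pre.dir (M.Xf u) h p := by
      simp only [Imm.dir_apply, Finset.mul_sum, ← Finset.sum_sub_distrib]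
      refine Finset.sum_congr rfl fun a _ => ?_
      rw [e', Imm.D_sub ((s1.add (Imm.sm_const σ)).diffAt p) (hh.diffAt p),
        Imm.D_add (s1.diffAt p) ((Imm.sm_const σ).diffAt p), Imm.D_const,
        Imm.D_const_mul τ (hu.diffAt p)]
      ring
    have e2 : 0 ≤ M.pre.dir (M.Xf u) u p := by
      rw [Imm.dir_apply]
      refine Finset.sum_nonneg fun a _ => ?_
      rw [Imm.Xf_apply, mul_assoc]
      exact mul_nonneg (M.vv_pos u p).le (mul_self_nonneg _)
    have e3 := Imm.gam_self_nonneg (M := M.graph u hu) h p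
    rw [Imm.graph_pre hu, Imm.gS_gam] at e3
    have e4 := (le_abs_self _).trans ((Real.abs_le_sqrt (x := M.pre.dir (M.Xf u) h p)
      (y := M.pre.gam h h p) (by linarith)).trans (hhk p))
    linarith [mul_nonneg hτ e2]
  have hζ2 : (h p ^ 2 - ε) * ζ p ^ 2 ≤ M.hF F u p ^ 2 * ζ p ^ 2 := by
    by_cases h0 : ζ p = 0
    · simp [h0]
    · exact mul_le_mul_of_nonneg_right (hε p h0) (sq_nonneg _)
  have key : 2 * ((M.gS u).gam ζ ζ p - (M.a2 u p + M.pre.RicF F (M.Xf u) p +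
      M.pre.dir (M.Xf u) (M.hF F u) p) * ζ p ^ 2) ≤ 2 * (M.gS u).gam ζ ζ p + ((M.gS u).EF F p -
      (M.pre.EF F p + h p ^ 2 - 2 * k p) + ε) * ζ p ^ 2 := by
    rw [Imm.gauss hu hF]
    linarith [mul_le_mul_of_nonneg_right hdir (sq_nonneg (ζ p)),
      mul_nonneg (M.a2_nonneg u p) (sq_nonneg (ζ p))]
  have := mul_le_mul_of_nonneg_right key (Real.exp_pos (F p)).le
  beta_reduce
  rw [Imm.jacobi hu hF, mul_div_cancel_right₀ _ (M.vv_pos u p).ne']
  linarith

theorem intg_eta {η : ℝ → ℝ} {T : ℝ} (hη : Continuous η) (h : ∀ t, T < |t| → η t = 0) :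
    Integrable fun t => η t ^ 2 :=
  (hη.pow 2).integrable_of_hasCompactSupport (HasCompactSupport.intro (isCompact_Icc (a := -T)
    (b := T)) fun t ht => by simp [h t (not_le.1 fun h' => ht (abs_le.1 h'))])

theorem intg_lin {f g : ℝ → ℝ} (hf : Integrable f) (hg : Integrable g) (A B : ℝ) :
    ∫ t, (f t * A + g t * B) = (∫ t, f t) * A + (∫ t, g t) * B := by
  rw [integral_add (hf.mul_const _) (hg.mul_const _), integral_mul_const, integral_mul_const]

variable {m : ℕ} {ι : Type} [Fintype ι] [DecidableEq ι] {X : Type}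
  [TopologicalSpace X] [T2Space X] [SecondCountableTopology X] [MeasurableSpace X] [BorelSpace X]
  [CompactSpace X] {M : Imm (m + 1) ι X} {F h k : X → ℝ} {Λ : ℝ} {𝒰 : Ultrafilter ℕ}
  {u : ℕ → X → ℝ} {τ s : ℕ → ℝ} {N : Imm m ι (M.Sig 𝒰 u)}

/-- the convergence statement of `ConvStmt` -/
def Cv (N : Imm m ι (M.Sig 𝒰 u)) : Prop :=
  ∀ (Ψ : X × ℝ × (Option ι → Option ι → ℝ) × (Option ι → Option ι → Option ι → ℝ) → ℝ)
    (K : Set X) (T : ℝ), Continuous Ψ → IsCompact K → Disjoint K (M.Bad 𝒰 u) →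
    (∀ s, Ψ s ≠ 0 → s.1 ∈ K ∧ |s.2.1| ≤ T) →
    Tendsto (fun j => ∫ q, Ψ (q, u j q, fun b c => (M.gS (u j)).P b c q,
        fun a b c => (M.gS (u j)).D a ((M.gS (u j)).P b c) q) ∂M.gmu (u j)) 𝒰
      (𝓝 (∫ q : M.Sig 𝒰 u, (∫ t : ℝ, Ψ (q, t, N.cylP q, N.cylB q)) ∂N.mu))

theorem isCompact_pre {K : Set X} (hK : IsCompact K) (hd : Disjoint K (M.Bad 𝒰 u)) :
    IsCompact (Subtype.val ⁻¹' K : Set (M.Sig 𝒰 u)) := by
  rw [Subtype.isCompact_iff, Subtype.image_preimage_coe]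
  have : M.Sig 𝒰 u ∩ K = Sb 𝒰 u ∩ K :=
    Set.ext fun p => ⟨fun h => ⟨h.1.1, h.2⟩, fun h => ⟨⟨h.1, disjoint_left.1 hd h.2⟩, h.2⟩⟩
  rw [this]
  exact hK.inter_left (isClosed_Sb 𝒰 u)

/-- the mean curvature bound passes to the limit -/
theorem lim_H (hc : Cv N) (hB : IsClosed (M.Bad 𝒰 u)) {C : ℝ} (hC0 : 0 ≤ C)
    (hC : ∀ j, M.Sheet C (u j)) (q0 : M.Sig 𝒰 u) : ‖N.Hv q0‖ ≤ C := by
  obtain ⟨χ, hχ, hs, h01, h1⟩ := M.exists_bump (isCompact_singleton (x := q0.1)) hB.isOpen_compl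
    (singleton_subset_iff.2 q0.2.2)
  obtain ⟨η, T, hη, hT, ha, -⟩ := exists_eta one_pos
  have cχ := hχ.sm.continuous
  have cη := hη.continuous
  have cJ := cont_hJ (ι := ι)
  have hd : Disjoint (tsupport χ) (M.Bad 𝒰 u) := subset_compl_iff_disjoint_right.1 hs
  have l1 := hc (fun s => η s.2.1 ^ 2 * (χ s.1 * max 0 (hJ s.2.2.2 - C ^ 2))) (tsupport χ) T
    (by fun_prop) hχ.cs hd fun s hs => ⟨subset_tsupport _ fun h0 => hs (by simp [h0]),
      not_lt.1 fun h0 => hs (by simp [(hT _ h0).1])⟩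
  have e1 : ∀ j q, max 0 (hJ (fun a b c => (M.gS (u j)).D a ((M.gS (u j)).P b c) q) - C ^ 2) = 0 :=
    fun j q => max_eq_left (by
      rw [← h_graph]
      exact sub_nonpos.2 (pow_le_pow_left₀ (norm_nonneg _) ((hC j).H q) 2))
  simp only [e1, mul_zero, integral_zero, integral_mul_const, h_cyl] at l1
  have l2 := tendsto_nhds_unique l1 tendsto_const_nhds
  by_contra hq
  have cH : Continuous N.Hv := (Imm.sm_euclid.2 N.sm_H).continuous
  refine (Continuous.integral_pos_of_hasCompactSupport_nonneg_nonzero (x := q0)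
    (f := fun q : M.Sig 𝒰 u => (∫ t, η t ^ 2) * (χ q * max 0 (‖N.Hv q‖ ^ 2 - C ^ 2)))
    (continuous_const.mul ((cχ.comp continuous_subtype_val).mul
      (continuous_const.max ((cH.norm.pow 2).sub continuous_const))))
    (HasCompactSupport.intro (isCompact_pre hχ.cs hd) fun q hq => ?_)
    (fun q => mul_nonneg ha.le (mul_nonneg (h01 _).1 (le_max_left _ _))) ?_).ne' l2
  · simp [image_eq_zero_of_notMem_tsupport (f := χ) hq]
  · rw [h1.self_of_nhdsSet _ rfl, one_mul, max_eq_right]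
    · exact mul_ne_zero ha.ne' (sub_pos.2 (pow_lt_pow_left₀ (not_le.1 hq) hC0 two_ne_zero)).ne'
    · exact (sub_pos.2 (pow_lt_pow_left₀ (not_le.1 hq) hC0 two_ne_zero)).le

theorem ev_hF (hs : M.Seq F h Λ 𝒰 u τ s) {ε : ℝ} (hε : 0 < ε) (T : ℝ) :
    ∀ᶠ j in (𝒰 : Filter ℕ), ∀ p, |u j p| ≤ T → h p ^ 2 - ε ≤ M.hF F (u j) p ^ 2 := by
  obtain ⟨B, hB0, hB⟩ := Imm.exists_bound hs.smh.continuous
  have l : Tendsto (fun j => 2 * ((τ j * T + |s j|) * B)) 𝒰 (𝓝 0) := by
    simpa using (((hs.tau.mul_const T).add hs.sh.abs).mul_const B).const_mul 2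
  filter_upwards [l.eventually (gt_mem_nhds hε)] with j hj p hp
  have a1 : |τ j * u j p + s j| ≤ τ j * T + |s j| := by
    refine (abs_add_le _ _).trans (add_le_add ?_ le_rfl)
    rw [abs_mul, abs_of_pos (hs.pos j)]
    exact mul_le_mul_of_nonneg_left hp (hs.pos j).le
  have a2 : (τ j * u j p + s j) * h p ≤ (τ j * T + |s j|) * B := by
    refine (le_abs_self _).trans ?_
    rw [abs_mul]
    exact mul_le_mul a1 (hB p) (abs_nonneg _) ((abs_nonneg _).trans a1)
  rw [hs.eq]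
  nlinarith [sq_nonneg (τ j * u j p + s j)]

/-- the stability inequality passes to the limit, up to `ε` -/
theorem lim_form (hP : PicStmt) (hc : Cv N) (hx : ∀ q, N.x q = M.x q) (hF : M.Sm F)
    (hs : M.Seq F h Λ 𝒰 u τ s) (hk : M.Sm k) (hhk : ∀ p, √(M.pre.gam h h p) ≤ k p) {z : X → ℝ}
    (hz : M.Sm z) (hd : Disjoint (tsupport z) (M.Bad 𝒰 u)) (hN : N.Tst fun q => z q) {ε : ℝ}
    (hε : 0 < ε) : 0 ≤ (∫ q, (2 * N.pre.gam (fun q => z q) (fun q => z q) q +
      (N.pre.EF (fun q => F q) q - (M.pre.EF F q + h q ^ 2 - 2 * k q)) * z q ^ 2) *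
        Real.exp (F q) ∂N.mu) + ε * (3 * ∫ q, z q ^ 2 * Real.exp (F q) ∂N.mu) := by
  obtain ⟨η, T, hη, hT, ha, hb⟩ := exists_eta hε
  have loc := Loc.of_cont continuous_subtype_val hx
  have cη := hη.continuous
  have cη' := hη.continuous_deriv (by simp)
  have cz := hz.continuous
  have cF := hF.continuous
  have cG : Continuous fun p => M.pre.EF F p + h p ^ 2 - 2 * k p :=
    (hF.EF.continuous.add (hs.smh.continuous.pow 2)).sub (continuous_const.mul hk.continuous)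
  have l1 := hc (fun s => (2 * gamJ s.2.2.1 (z s.1) (η s.2.1) (deriv η s.2.1)
      (fun b => M.pre.D b z s.1) + (efJ s.2.2.1 s.2.2.2 (fun b => M.pre.D b F s.1)
      (fun e b => M.pre.D e (M.pre.D b F) s.1) - (M.pre.EF F s.1 + h s.1 ^ 2 - 2 * k s.1) + ε) *
      (z s.1 * η s.2.1) ^ 2) * Real.exp (F s.1)) (tsupport z) T ?_
    (isClosed_tsupport z).isCompact hd fun s hs => ⟨?_, ?_⟩
  rotate_left
  · refine ((continuous_const.mul (cont_gamJ (by fun_prop) (by fun_prop) (by fun_prop)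
      (by fun_prop) (continuous_pi fun b => (hz.D b).continuous.comp continuous_fst))).add
      ((((cont_efJ (by fun_prop) (by fun_prop)
        (continuous_pi fun b => (hF.D b).continuous.comp continuous_fst)
        (continuous_pi fun e => continuous_pi fun b =>
          ((hF.D b).D e).continuous.comp continuous_fst)).sub (cG.comp continuous_fst)).add
        continuous_const).mul (by fun_prop))).mul (by fun_prop)
  · by_contra h0
    exact hs (by simp [gamJ, image_eq_zero_of_notMem_tsupport h0, Imm.D_eq_zero_of_notMem h0])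
  · by_contra h0
    exact hs (by simp [gamJ, (hT _ (not_le.1 h0)).1, (hT _ (not_le.1 h0)).2])
  have l2 := ge_of_tendsto l1 (by
    filter_upwards [ev_hF hs hε T] with j hj
    have hu := (hs.adm j).sm
    have := stab_graph hP hF hs.smh hk hu (hz.mul (hu.comp hη)) (hs.pos j).le (hs.eq j) hhk
      fun p hp => hj p (not_lt.1 fun h0 => hp (by simp [(hT _ h0).1]))
    simpa only [gam_graph hu hz hη, ef_graph hu hF] using this)
  have i1 := intg_eta cη fun t ht => (hT t ht).1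
  have i2 := intg_eta cη' fun t ht => (hT t ht).2
  have cz' := hN.sm.continuous
  have cF' := (hF.res loc).continuous
  have j1 : Integrable (fun q : M.Sig 𝒰 u => z q ^ 2 * Real.exp (F q)) N.mu :=
    Imm.integrable_of_support hN.cs (by fun_prop) fun q hq => by
      rw [image_eq_zero_of_notMem_tsupport (f := fun q : M.Sig 𝒰 u => z q) hq]; simp
  have j2 : Integrable (fun q : M.Sig 𝒰 u => (2 * N.pre.gam (fun q => z q) (fun q => z q) q +
      (N.pre.EF (fun q => F q) q - (M.pre.EF F q + h q ^ 2 - 2 * k q)) * z q ^ 2) *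
        Real.exp (F q)) N.mu := by
    refine Imm.integrable_of_support hN.cs (((continuous_const.mul (hN.sm.gam hN.sm).continuous).add
      (((hF.res loc).EF.continuous.sub (cG.comp continuous_subtype_val)).mul (cz'.pow 2))).mul
        (by fun_prop)) fun q hq => ?_
    rw [image_eq_zero_of_notMem_tsupport (f := fun q : M.Sig 𝒰 u => z q) hq, Imm.gam_apply]
    simp [Imm.D_eq_zero_of_notMem hq]
  have j0 : 0 ≤ ∫ q : M.Sig 𝒰 u, z q ^ 2 * Real.exp (F q) ∂N.mu :=
    integral_nonneg fun q => by positivity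
  have e1 : ∀ q : M.Sig 𝒰 u, ∫ t, (2 * gamJ (N.cylP q) (z q) (η t) (deriv η t)
      (fun b => M.pre.D b z q) + (efJ (N.cylP q) (N.cylB q) (fun b => M.pre.D b F q)
      (fun e b => M.pre.D e (M.pre.D b F) q) - (M.pre.EF F q + h q ^ 2 - 2 * k q) + ε) *
      (z q * η t) ^ 2) * Real.exp (F q) =
      (∫ t, η t ^ 2) * ((2 * N.pre.gam (fun q => z q) (fun q => z q) q +
        (N.pre.EF (fun q => F q) q - (M.pre.EF F q + h q ^ 2 - 2 * k q)) * z q ^ 2) *
          Real.exp (F q)) +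
      ((∫ t, η t ^ 2) * ε + (∫ t, deriv η t ^ 2) * 2) * (z q ^ 2 * Real.exp (F q)) := fun q => by
    refine (integral_congr_ae (Eventually.of_forall fun t => ?_)).trans
      ((intg_lin i1 i2 ((2 * N.pre.gam (fun q => z q) (fun q => z q) q +
        (N.pre.EF (fun q => F q) q - (M.pre.EF F q + h q ^ 2 - 2 * k q) + ε) * z q ^ 2) *
          Real.exp (F q)) (2 * (z q ^ 2 * Real.exp (F q)))).trans (by ring))
    have a1 := gam_cyl loc hz (η t) (deriv η t) q
    have a2 := ef_cyl loc hF q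
    rw [a1, a2]
    ring
  simp only [e1] at l2
  rw [integral_add (j2.const_mul _) (j1.const_mul _), integral_const_mul, integral_const_mul] at l2
  refine le_of_mul_le_mul_left ?_ ha
  nlinarith [mul_le_mul_of_nonneg_right hb j0]

end Lm

theorem lim_of (hN : NetStmt) (hV : ConvStmt) (hP : PicStmt) (hS : SheetStmt) : LimStmt := by
  intro m ι _ _ X _ _ _ _ _ _ M F h Λ 𝒰 u τ s hi hF hs k hk hhk
  obtain ⟨N, hx, hext, hc⟩ := hV m ι X M F h Λ 𝒰 u τ s hi hF hs
  obtain ⟨hB, hnet⟩ := hN m ι X M F h Λ 𝒰 u τ s hi hF hs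
  obtain ⟨C, hC0, hC⟩ := hS (m + 1) ι X M F hi hF Λ
  refine ⟨N, hx, hB, fun p hp => hp.1, hnet,
    ⟨C, Lm.lim_H hc hB hC0 fun j => hC _ (hs.adm j)⟩, fun z hz => ?_⟩
  obtain ⟨z', hz', hd, e⟩ := hext z hz
  obtain rfl : (fun q : M.Sig 𝒰 u => z' q) = z := funext e
  refine le_of_forall_pos_le_add fun δ hδ => ?_
  have j0 : 0 ≤ ∫ q : M.Sig 𝒰 u, z' q ^ 2 * Real.exp (F q) ∂N.mu :=
    integral_nonneg fun q => by positivity
  refine (Lm.lim_form hP hc hx hF hs hk hhk hz' hd hz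
    (ε := δ / (3 * (∫ q : M.Sig 𝒰 u, z' q ^ 2 * Real.exp (F q) ∂N.mu) + 1))
    (by positivity)).trans (add_le_add le_rfl ?_)
  rw [div_mul_eq_mul_div, div_le_iff₀ (by positivity)]
  nlinarith

end Crest.Agent.N222

end
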