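import Crest.Agent.N222.B.Defs2
import Crest.Agent.N222.B.E1
import Crest.Agent.N222.F.Lip
import Crest.Agent.N222.F.Ker

/-!
# Row 222, limit block (helper18): L3, the bad set is small
-/

set_option autoImplicit false
set_option linter.unusedSectionVars false
open MeasureTheory Set Filter Topology Function Metric
open scoped ContDiff InnerProductSpace RealInnerProductSpace

noncomputable section

namespace Crest.Agent.N222

namespace Lm

variable {d : ℕ} {ι : Type} [Fintype ι] [DecidableEq ι] {X : Type} [TopologicalSpace X]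
  [MeasurableSpace X] {M : Imm d ι X} {𝒰 : Ultrafilter ℕ} {u : ℕ → X → ℝ}

theorem isOpen_Upos (𝒰 : Ultrafilter ℕ) (u : ℕ → X → ℝ) : IsOpen (Upos 𝒰 u) := by
  refine isOpen_iff_mem_nhds.2 fun p ⟨N, hN, h⟩ => ?_
  filter_upwards [eventually_mem_nhds_iff.2 hN] with q hq using ⟨N, hq, h⟩

theorem isClosed_Sb (𝒰 : Ultrafilter ℕ) (u : ℕ → X → ℝ) : IsClosed (Sb 𝒰 u) := by
  exact ((isOpen_Upos 𝒰 u).union (isOpen_Upos 𝒰 _)).isClosed_compl

theorem isClosed_Bad (M : Imm d ι X) (𝒰 : Ultrafilter ℕ) (u : ℕ → X → ℝ) :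
    IsClosed (M.Bad 𝒰 u) := by
  have h : IsOpen {p | ∃ t, M.Reg 𝒰 u p t} := by
    refine isOpen_iff_mem_nhds.2 fun p ⟨t, ρ, C, hρ, h⟩ => ?_
    have h1 : ∀ᶠ p' in 𝓝 p, ‖M.x p' - M.x p‖ < ρ / 2 :=
      (M.continuous_x.sub continuous_const).norm.continuousAt.eventually_lt continuousAt_const
        (by simpa using hρ)
    filter_upwards [h1] with p' hp'
    have h2 : ∀ y : E (Option ι), ‖y - up t (M.x p')‖ < ρ / 2 → ‖y - up t (M.x p)‖ < ρ := by
      intro y hy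
      have h3 := norm_sub_le_norm_sub_add_norm_sub y (up t (M.x p')) (up t (M.x p))
      have h4 := norm_up_le (t - t) (M.x p' - M.x p)
      rw [← up_sub, sub_self, abs_zero] at h4
      linarith
    exact ⟨t, ρ / 2, C, half_pos hρ, h.mono fun j hj q q' hq hq' => hj q q' (h2 _ hq) (h2 _ hq')⟩
  have h' : M.Bad 𝒰 u = Sb 𝒰 u ∩ {p | ∃ t, M.Reg 𝒰 u p t}ᶜ := by
    ext p; simp [Imm.Bad]
  rw [h']
  exact (isClosed_Sb 𝒰 u).inter h.isClosed_compl

theorem conc_aux {n : ℕ} {η C0 R k r l I1 I2 I3 a : ℝ} (hη : 0 < η) (hC0 : 0 ≤ C0) (hR : 0 < R)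
    (hk0 : 0 < k) (hk : k ≤ 1) (hr : 0 < r) (hl : l = (k * r) ^ 2 * ((C0 + 1) * R ^ n) / (2 * η))
    (h2 : η * (k * r) ^ n < (k * r) ^ 2 * I1) (h3 : a ≤ C0 * (R * (k * r)) ^ n) (h4 : I2 ≤ I3)
    (h5 : I1 ≤ l * I2 + a * (1 / (4 * l))) (h0 : 0 ≤ I3) :
    η ^ 2 * k ^ n / ((C0 + 1) * R ^ n) * r ^ n ≤ r ^ 4 * I3 := by
  have hl0 : 0 < l := by rw [hl]; positivity
  have hD : 0 < (C0 + 1) * R ^ n := by positivity
  have e1 : a ≤ (C0 + 1) * R ^ n * (k * r) ^ n := by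
    rw [mul_pow] at h3
    have : 0 ≤ R ^ n * (k * r) ^ n := by positivity
    nlinarith
  have e2 : (k * r) ^ 2 * ((C0 + 1) * R ^ n * (k * r) ^ n * (1 / (4 * l))) = η * (k * r) ^ n / 2 := by
    rw [hl]; field_simp; ring
  have e3 : I1 ≤ l * I3 + (C0 + 1) * R ^ n * (k * r) ^ n * (1 / (4 * l)) :=
    h5.trans (add_le_add (mul_le_mul_of_nonneg_left h4 hl0.le)
      (mul_le_mul_of_nonneg_right e1 (by positivity)))
  have e4 := mul_le_mul_of_nonneg_left e3 (by positivity : 0 ≤ (k * r) ^ 2)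
  rw [mul_add, e2] at e4
  have e5 : (k * r) ^ 2 * (l * I3) * (2 * η) = k ^ 4 * (r ^ 4 * I3 * ((C0 + 1) * R ^ n)) := by
    rw [hl]; field_simp
  have e6 : k ^ 4 * (r ^ 4 * I3 * ((C0 + 1) * R ^ n)) ≤ r ^ 4 * I3 * ((C0 + 1) * R ^ n) :=
    mul_le_of_le_one_left (by positivity) (pow_le_one₀ hk0.le hk)
  have e7 : η * (k * r) ^ n / 2 * (2 * η) ≤ (k * r) ^ 2 * (l * I3) * (2 * η) :=
    mul_le_mul_of_nonneg_right (by linarith) (by positivity)
  rw [div_mul_eq_mul_div, div_le_iff₀ hD]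
  rw [mul_pow k r n] at e7
  linarith

theorem exists_net {X V : Type} [NormedAddCommGroup V] (x : X → V) (B : Set X) {r : ℝ} (hr : 0 < r)
    (K : ℝ) (h : ∀ S : Finset X, (∀ p ∈ S, p ∈ B) → (∀ p ∈ S, ∀ q ∈ S, p ≠ q → r < ‖x p - x q‖) →
      (S.card : ℝ) ≤ K) : ∃ S : Finset X, (∀ p ∈ S, p ∈ B) ∧
      (∀ p ∈ S, ∀ q ∈ S, p ≠ q → r < ‖x p - x q‖) ∧ ∀ p ∈ B, ∃ q ∈ S, ‖x p - x q‖ ≤ r := by
  classical
  by_contra hn
  push Not at hn
  have key : ∀ n : ℕ, ∃ S : Finset X, (∀ p ∈ S, p ∈ B) ∧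
      (∀ p ∈ S, ∀ q ∈ S, p ≠ q → r < ‖x p - x q‖) ∧ S.card = n := by
    intro n
    induction n with
    | zero => exact ⟨∅, by simp, by simp, rfl⟩
    | succ n ih =>
      obtain ⟨S, h1, h2, h3⟩ := ih
      obtain ⟨p, hp, hpS⟩ := hn S h1 h2
      have hp' : p ∉ S := fun hp' => by
        have := hpS p hp'
        rw [sub_self, norm_zero] at this
        linarith
      refine ⟨insert p S, ?_, ?_, by rw [Finset.card_insert_of_notMem hp', h3]⟩
      · intro q hq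
        rcases Finset.mem_insert.1 hq with rfl | hq
        exacts [hp, h1 q hq]
      · intro a ha b hb hab
        rcases Finset.mem_insert.1 ha with ea | ha' <;> rcases Finset.mem_insert.1 hb with eb | hb'
        · exact absurd (ea.trans eb.symm) hab
        · rw [ea]; exact hpS b hb'
        · rw [eb, norm_sub_rev]; exact hpS a ha'
        · exact h2 a ha' b hb' hab
  obtain ⟨n, hn'⟩ := exists_nat_gt K
  obtain ⟨S, h1, h2, h3⟩ := key n
  have := h S h1 h2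
  rw [h3] at this
  linarith

/-- curvature concentrates at every scale at a point that is not regular -/
theorem conc (hW : W2Stmt) (hF : FLStmt) (hC : CalStmt) :
    AllSeq fun m _ _ _ _ _ _ _ _ _ _ M _ _ 𝒰 u => ∃ c : ℝ, 0 < c ∧ ∀ p t, ¬ M.Reg 𝒰 u p t →
      ∀ r : ℝ, 0 < r → r ≤ 1 → ∀ᶠ j in (𝒰 : Filter ℕ), c * r ^ (m + 1) ≤
        r ^ 4 * ∫ q in {q | ‖M.gx (u j) q - up t (M.x p)‖ ≤ r / 3}, M.a2 (u j) q ^ 2 ∂M.gmu (u j) := by
  intro m ι _ _ X _ _ _ _ _ _ M F h Λ 𝒰 u τ s hM hFs hseq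
  obtain ⟨ε, θ, C, hε, hθ, hW2⟩ := hW _ _ _ M F hM hFs Λ (1 / 100) (by norm_num)
  obtain ⟨R, η, hR, hη, hFL⟩ := hF _ _ _ M F hM hFs Λ ε hε
  obtain ⟨C0, hC0, hCal⟩ := hC _ _ _ M F hM hFs Λ
  set k := min (min ε η) (1 / (3 * (R + 1))) with hk
  have hk0 : 0 < k := by positivity
  have hk1 : k * (3 * (R + 1)) ≤ 1 := (le_div_iff₀ (by positivity)).1 (min_le_right _ _)
  have hkε : k ≤ ε := (min_le_left _ _).trans (min_le_left _ _)
  have hkη : k ≤ η := (min_le_left _ _).trans (min_le_right _ _)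
  have hk2 : k ≤ 1 := by nlinarith
  refine ⟨η ^ 2 * k ^ (m + 1) / ((C0 + 1) * R ^ (m + 1)), by positivity, fun p t hp r hr hr1 => ?_⟩
  have hr' : 0 < k * r := by positivity
  have hkr : k * r ≤ k := mul_le_of_le_one_right hk0.le hr1
  have h1 : ¬ ∀ᶠ j in (𝒰 : Filter ℕ), M.Flat ε (u j) (up t (M.x p)) (k * r) := fun h1 =>
    hp ⟨θ * (k * r), C / (k * r) ^ 2, by positivity, h1.mono fun j hj q q' hq hq' => by
      obtain ⟨h2, h3⟩ := hW2 _ (hseq.adm j) _ _ hr' (hkr.trans hkε) hj q q' hq hq'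
      exact ⟨(le_div_iff₀' (by positivity)).2 h2, h3⟩⟩
  filter_upwards [Ultrafilter.eventually_not.2 h1] with j hj
  have hu := (hseq.adm j).sm
  have := Imm.isFiniteMeasure_gmu hu
  simp only [Imm.Flat, not_forall, not_le] at hj
  obtain ⟨q, hq, hq'⟩ := hj
  have h2 := lt_of_not_ge fun h2 =>
    (hFL _ (hseq.adm j) q _ hr' (hkr.trans hkη) h2).not_gt hq'
  have h3 := (hCal _ (hseq.adm j)).2.1 (M.gx (u j) q) (R * (k * r)) (by positivity) (by nlinarith)
  have hi2 := EP.integrable_gmu hu (hu.a2.continuous.pow 2)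
  have h4 : ∫ q' in {q' | ‖M.gx (u j) q' - M.gx (u j) q‖ ≤ R * (k * r)}, M.a2 (u j) q' ^ 2 ∂M.gmu (u j)
      ≤ ∫ q' in {q' | ‖M.gx (u j) q' - up t (M.x p)‖ ≤ r / 3}, M.a2 (u j) q' ^ 2 ∂M.gmu (u j) := by
    refine setIntegral_mono_set hi2.integrableOn (.of_forall fun _ => sq_nonneg _)
      (LE.le.eventuallyLE fun q' hq' => ?_)
    have h5 := norm_sub_le_norm_sub_add_norm_sub (M.gx (u j) q') (M.gx (u j) q) (up t (M.x p))
    have h6 : ‖M.gx (u j) q' - M.gx (u j) q‖ ≤ R * (k * r) := hq'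
    have h7 := mul_le_mul_of_nonneg_right hk1 hr.le
    show _ ≤ r / 3
    nlinarith
  set l := (k * r) ^ 2 * ((C0 + 1) * R ^ (m + 1)) / (2 * η) with hl
  have hl0 : 0 < l := by positivity
  have h5 := setIntegral_mono (s := {q' | ‖M.gx (u j) q' - M.gx (u j) q‖ ≤ R * (k * r)})
    (EP.integrable_gmu hu hu.a2.continuous).integrableOn
    ((hi2.const_mul l).add (integrable_const (1 / (4 * l)))).integrableOn fun q' => by
      have e1 : l * M.a2 (u j) q' ^ 2 + 1 / (4 * l) - M.a2 (u j) q' =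
          (2 * l * M.a2 (u j) q' - 1) ^ 2 / (4 * l) := by field_simp; ring
      have e2 : 0 ≤ (2 * l * M.a2 (u j) q' - 1) ^ 2 / (4 * l) := by positivity
      show _ ≤ l * M.a2 (u j) q' ^ 2 + 1 / (4 * l)
      linarith
  simp only [Pi.add_apply] at h5
  rw [integral_add (hi2.const_mul l).integrableOn (integrable_const _), integral_const_mul,
    setIntegral_const, smul_eq_mul] at h5
  exact conc_aux hη hC0 (by linarith) hk0 hk2 hr hl h2 h3 h4 h5
    (integral_nonneg fun _ => sq_nonneg _)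

end Lm

theorem net_of (hW : W2Stmt) (hF : FLStmt) (hY : SSYStmt) (hC : CalStmt) : NetStmt := by
  intro m ι _ _ X _ _ _ _ _ _ M F h Λ 𝒰 u τ s hM hFs hseq
  obtain ⟨c, hc, hconc⟩ := Lm.conc hW hF hC m ι X M F h Λ 𝒰 u τ s hM hFs hseq
  obtain ⟨C, hSSY⟩ := hY _ _ _ M F hM hFs Λ 2
  refine ⟨Lm.isClosed_Bad M 𝒰 u, C / c, fun r hr hr1 => ?_⟩
  have key : ∀ S : Finset X, (∀ p ∈ S, p ∈ M.Bad 𝒰 u) →
      (∀ p ∈ S, ∀ q ∈ S, p ≠ q → r < ‖M.x p - M.x q‖) → (S.card : ℝ) * r ^ m ≤ C / c * r ^ 4 := by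
    intro S hS hsep
    set n := ⌈1 / r⌉₊ with hn
    have hn1 : 1 ≤ n * r := (div_le_iff₀ hr).1 (Nat.le_ceil _)
    have hn2 : ∀ i ∈ Finset.range n, (i : ℝ) * r ≤ 1 := fun i hi =>
      (le_div_iff₀ hr).1 (Nat.lt_ceil.1 (Finset.mem_range.1 hi)).le
    obtain ⟨j, hj⟩ := ((eventually_all_finset (S ×ˢ Finset.range n)).2 fun z hz =>
      hconc z.1 (z.2 * r) ((hS _ (Finset.mem_product.1 hz).1).2 _) r hr hr1).exists
    have hu := (hseq.adm j).sm
    have hi2 := EP.integrable_gmu hu (hu.a2.continuous.pow 2)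
    let A : X × ℕ → Set X := fun z => {q | ‖M.gx (u j) q - up (z.2 * r) (M.x z.1)‖ ≤ r / 3}
    have hA : ∀ z, MeasurableSet (A z) := fun z =>
      (isClosed_le ((Imm.sm_gx hu).continuous.sub continuous_const).norm
        continuous_const).measurableSet
    have hdis : Set.Pairwise (↑(S ×ˢ Finset.range n)) (Disjoint on A) := by
      intro z hz z' hz' hne
      refine Set.disjoint_left.2 fun q hq hq' => ?_
      have e1 : ‖M.gx (u j) q - up (z.2 * r) (M.x z.1)‖ ≤ r / 3 := hq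
      have e2 : ‖M.gx (u j) q - up (z'.2 * r) (M.x z'.1)‖ ≤ r / 3 := hq'
      have e3 := norm_sub_le_norm_sub_add_norm_sub (up (z.2 * r) (M.x z.1)) (M.gx (u j) q)
        (up (z'.2 * r) (M.x z'.1))
      rw [norm_sub_rev _ (M.gx (u j) q)] at e3
      by_cases e4 : z.1 = z'.1
      · have e5 : z.2 ≠ z'.2 := fun e5 => hne (Prod.ext e4 e5)
        have e6 := abs_none_le (up (z.2 * r) (M.x z.1) - up (z'.2 * r) (M.x z'.1))
        rw [up_sub, up_none, ← up_sub, ← sub_mul, abs_mul, abs_of_pos hr] at e6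
        have e7 : (1 : ℝ) ≤ |(z.2 : ℝ) - z'.2| := by
          have : (1 : ℤ) ≤ |(z.2 : ℤ) - z'.2| := Int.one_le_abs (sub_ne_zero.2 (by exact_mod_cast e5))
          exact_mod_cast this
        nlinarith
      · have e5 := hsep _ (Finset.mem_product.1 hz).1 _ (Finset.mem_product.1 hz').1 e4
        have e6 := norm_down_le (up (z.2 * r) (M.x z.1) - up (z'.2 * r) (M.x z'.1))
        rw [down_sub, down_up, down_up] at e6
        linarith
    have h1 := integral_biUnion_finset (S ×ˢ Finset.range n) (fun z _ => hA z) hdis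
      fun z _ => hi2.integrableOn
    have h2 : ∫ q in ⋃ z ∈ S ×ˢ Finset.range n, A z, M.a2 (u j) q ^ 2 ∂M.gmu (u j) ≤ C := by
      refine le_trans (setIntegral_mono_set hi2.integrableOn (.of_forall fun _ => sq_nonneg _)
        (LE.le.eventuallyLE fun q hq => ?_)) (hSSY _ (hseq.adm j))
      obtain ⟨z, hz, hq⟩ := mem_iUnion₂.1 hq
      have e1 := (Imm.abs_u_sub_le (u j) q _).trans hq
      have e2 := hn2 _ (Finset.mem_product.1 hz).2
      have e3 : 0 ≤ (z.2 : ℝ) * r := by positivity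
      rw [up_none, abs_le] at e1
      show |u j q| ≤ 2
      rw [abs_le]; constructor <;> linarith [e1.1, e1.2]
    have h3 := Finset.sum_le_sum hj
    rw [Finset.sum_const, Finset.card_product, Finset.card_range, nsmul_eq_mul, ← Finset.mul_sum]
      at h3
    have h4 : ((S.card * n : ℕ) : ℝ) * (c * r ^ (m + 1)) ≤ r ^ 4 * C :=
      h3.trans (mul_le_mul_of_nonneg_left (h1.symm.le.trans h2) (by positivity))
    have h5 : (S.card : ℝ) * r ^ m * c * 1 ≤ S.card * r ^ m * c * (n * r) :=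
      mul_le_mul_of_nonneg_left hn1 (by positivity)
    rw [div_mul_eq_mul_div, le_div_iff₀ hc]
    push_cast at h4
    rw [pow_succ] at h4
    linarith
  obtain ⟨S, h1, h2, h3⟩ := Lm.exists_net M.x (M.Bad 𝒰 u) hr (C / c * r ^ 4 / r ^ m)
    fun S h1 h2 => (le_div_iff₀ (by positivity)).2 (key S h1 h2)
  exact ⟨S, h1, key S h1 h2, h3⟩

end Crest.Agent.N222

end
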