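import Crest.Agent.N222.F.Defs

/-!
# Row 222, limit block (helper18): the cone argument (pure calculus)
-/

set_option autoImplicit false
open MeasureTheory Set Filter Topology Function Metric
open scoped ContDiff InnerProductSpace RealInnerProductSpace

noncomputable section

namespace Crest.Agent.N222.Lm

variable {m : ℕ}

/-- replace the coordinate `0` by `h` -/
def rep (z : E (Fin (m + 1))) (h : ℝ) : E (Fin (m + 1)) := z + (h - z 0) • ee 0

@[simp] theorem rep_zero (z : E (Fin (m + 1))) (h : ℝ) : rep z h 0 = h := by simp [rep]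

@[simp] theorem rep_succ (z : E (Fin (m + 1))) (h : ℝ) (i : Fin m) : rep z h i.succ = z i.succ := by
  simp [rep]

@[simp] theorem rep_rep (z : E (Fin (m + 1))) (h h' : ℝ) : rep (rep z h) h' = rep z h' := by
  ext i; refine Fin.cases ?_ (fun i => ?_) i <;> simp

@[simp] theorem rep_self (z : E (Fin (m + 1))) : rep z (z 0) = z := by simp [rep]

theorem contDiff_rep : ContDiff ℝ ∞ fun q : E (Fin (m + 1)) × ℝ => rep q.1 q.2 := by
  unfold rep; fun_prop

theorem norm_rep_zero_le (z : E (Fin (m + 1))) : ‖rep z 0‖ ≤ ‖z‖ := by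
  rw [EuclideanSpace.norm_eq, EuclideanSpace.norm_eq]
  refine Real.sqrt_le_sqrt ?_
  rw [Fin.sum_univ_succ, Fin.sum_univ_succ]
  simp only [rep_zero, rep_succ, norm_zero]
  nlinarith [sq_nonneg ‖z 0‖]

theorem rep_eq_add (z : E (Fin (m + 1))) (h : ℝ) : rep z h = rep z 0 + h • ee 0 := by
  ext i; refine Fin.cases ?_ (fun i => ?_) i <;> simp

theorem abs_zero_le_norm (z : E (Fin (m + 1))) : |z 0| ≤ ‖z‖ := by
  simpa using PiLp.norm_apply_le z 0

theorem norm_rep_le (z : E (Fin (m + 1))) (h : ℝ) : ‖rep z h‖ ≤ |h| + ‖rep z 0‖ := by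
  rw [rep_eq_add z h]
  refine (norm_add_le _ _).trans ?_
  rw [norm_smul]
  simp [add_comm]

theorem sign_near_zero {f : ℝ → ℝ} {c d : ℝ} (hf : HasDerivAt f d c) (hd : 0 < d) (h0 : f c = 0) :
    (∀ᶠ s in 𝓝[>] c, 0 < f s) ∧ ∀ᶠ s in 𝓝[<] c, f s < 0 := by
  obtain ⟨hl, hr⟩ := hasDerivAt_iff_tendsto_slope_left_right.1 hf
  constructor
  · filter_upwards [hr.eventually (lt_mem_nhds hd), self_mem_nhdsWithin] with s hs hs'
    rw [slope_def_field, h0, sub_zero] at hs
    have : 0 < s - c := sub_pos.2 hs'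
    exact (div_pos_iff_of_pos_right this).1 hs
  · filter_upwards [hl.eventually (lt_mem_nhds hd), self_mem_nhdsWithin] with s hs hs'
    rw [slope_def_field, h0, sub_zero] at hs
    have : s - c < 0 := sub_neg.2 hs'
    by_contra hn
    push Not at hn
    have := div_nonpos_of_nonneg_of_nonpos hn this.le
    linarith

/-- a function whose derivative is positive at all its zeros -/
theorem pos_of_deriv_pos {f f' : ℝ → ℝ} {a b : ℝ} (hf : ∀ s ∈ Icc a b, HasDerivAt f (f' s) s)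
    (h : ∀ s ∈ Icc a b, f s = 0 → 0 < f' s) (ha : f a = 0) : ∀ s ∈ Ioc a b, 0 < f s := by
  intro c hc
  by_contra hn
  push Not at hn
  have hab : a ∈ Icc a b := ⟨le_rfl, hc.1.le.trans hc.2⟩
  have hcont : ContinuousOn f (Icc a b) := fun s hs => (hf s hs).continuousAt.continuousWithinAt
  obtain ⟨a', ha1, ha2⟩ :=
    ((sign_near_zero (hf a hab) (h a hab ha) ha).1.and (Ioo_mem_nhdsGT hc.1)).exists
  -- zeros in `[a', c]`
  have hzero : ∀ s ∈ Icc a' c, f s ≤ 0 → ∃ r ∈ Icc a' s, f r = 0 := by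
    intro s hs hfs
    have hsub : Icc a' s ⊆ Icc a b := Icc_subset_Icc ha2.1.le (hs.2.trans hc.2)
    exact intermediate_value_Icc' hs.1 (hcont.mono hsub) ⟨hfs, ha1.le⟩
  have hsub : Icc a' c ⊆ Icc a b := Icc_subset_Icc ha2.1.le hc.2
  have hZ : IsCompact (Icc a' c ∩ f ⁻¹' {0}) :=
    isCompact_Icc.of_isClosed_subset
      ((hcont.mono hsub).preimage_isClosed_of_isClosed isClosed_Icc isClosed_singleton)
      inter_subset_left
  obtain ⟨r, hr, hr0⟩ := hzero c ⟨ha2.2.le, le_rfl⟩ hn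
  obtain ⟨c0, hc0, hmin⟩ := hZ.exists_isLeast ⟨r, hr, hr0⟩
  have hf0 : f c0 = 0 := hc0.2
  have hlt : a' < c0 := lt_of_le_of_ne hc0.1.1 fun e => by rw [← e] at hf0; linarith
  obtain ⟨s, hs1, hs2⟩ := ((sign_near_zero (hf c0 (hsub hc0.1)) (h c0 (hsub hc0.1) hf0) hf0).2.and
    (Ioo_mem_nhdsLT hlt)).exists
  obtain ⟨r', hr', hr0'⟩ := hzero s ⟨hs2.1.le, hs2.2.le.trans hc0.1.2⟩ hs1.le
  have := hmin ⟨⟨hr'.1, hr'.2.trans (hs2.2.le.trans hc0.1.2)⟩, hr0'⟩
  linarith [hr'.2, hs2.2]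

/-- an injective local diffeomorphism on an open set -/
theorem exists_diffeo {n : ℕ} {f : E (Fin n) → E (Fin n)} {S : Set (E (Fin n))} (hS : IsOpen S)
    (hf : ContDiffOn ℝ ∞ f S) (hi : InjOn f S) (hd : ∀ z ∈ S, Injective (fderiv ℝ f z)) :
    ∃ g : OpenPartialHomeomorph (E (Fin n)) (E (Fin n)), (∀ y, g y = f y) ∧ g.source = S ∧
      g.target = f '' S ∧ ContDiffOn ℝ ∞ g.symm g.target := by
  have hA : ∀ z ∈ S, ContDiffAt ℝ ∞ f z := fun z hz => hf.contDiffAt (hS.mem_nhds hz)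
  have hE : ∀ z ∈ S, ∃ L : E (Fin n) ≃L[ℝ] E (Fin n),
      HasStrictFDerivAt f (L : E (Fin n) →L[ℝ] E (Fin n)) z := by
    intro z hz
    refine ⟨(LinearEquiv.ofInjectiveEndo (fderiv ℝ f z : E (Fin n) →ₗ[ℝ] E (Fin n))
      (hd z hz)).toContinuousLinearEquiv, ?_⟩
    exact (hA z hz).hasStrictFDerivAt (by simp)
  have ho : IsOpenMap ((hi.toPartialEquiv f S).source.restrict (hi.toPartialEquiv f S)) := by
    rw [isOpenMap_iff_nhds_le]
    rintro ⟨z, hz⟩
    have hz' : z ∈ S := hz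
    obtain ⟨L, hL⟩ := hE z hz'
    have e1 : map ((hi.toPartialEquiv f S).source.restrict (hi.toPartialEquiv f S)) (𝓝 ⟨z, hz⟩) =
        map f (map Subtype.val (𝓝 (⟨z, hz'⟩ : S))) := rfl
    rw [e1, map_nhds_subtype_val, hS.nhdsWithin_eq hz', hL.map_nhds_eq_of_equiv]
    exact le_rfl
  refine ⟨OpenPartialHomeomorph.ofContinuousOpenRestrict (hi.toPartialEquiv f S) hf.continuousOn
    ho hS, fun _ => rfl, rfl, rfl, fun a ha => ?_⟩
  have hz := OpenPartialHomeomorph.map_target _ ha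
  obtain ⟨L, hL⟩ := hE _ hz
  exact (OpenPartialHomeomorph.contDiffAt_symm _ ha hL.hasFDerivAt (hA _ hz)).contDiffWithinAt

/-- the cone condition in the slab -/
def Cone (U : E (Fin (m + 1)) → ℝ) (t R : ℝ) : Prop :=
  ∀ z, ‖z‖ < R → |U z - t| < R → 4 ≤ fderiv ℝ U z (ee 0) ∧
    ∀ v : E (Fin (m + 1)), v 0 = 0 → 4 * |fderiv ℝ U z v| ≤ fderiv ℝ U z (ee 0) * ‖v‖

theorem hasFDerivAt_rep {f : E (Fin (m + 1)) → ℝ} {A : E (Fin (m + 1)) →L[ℝ] ℝ}
    {y : E (Fin (m + 1))} (hf : HasFDerivAt f A y) :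
    ∃ L : E (Fin (m + 1)) →L[ℝ] E (Fin (m + 1)), HasFDerivAt (fun y => rep y (f y)) L y ∧
      ∀ v, L v = rep v (A v) := by
  have h0 : HasFDerivAt (fun y : E (Fin (m + 1)) => y 0)
      (EuclideanSpace.proj (0 : Fin (m + 1)) : E (Fin (m + 1)) →L[ℝ] ℝ) y :=
    (EuclideanSpace.proj (0 : Fin (m + 1)) : E (Fin (m + 1)) →L[ℝ] ℝ).hasFDerivAt
  refine ⟨_, (hasFDerivAt_id y).add ((hf.sub h0).smul_const (ee 0)), fun v => ?_⟩
  simp [rep]

theorem hasDerivAt_line {U : E (Fin (m + 1)) → ℝ} {y ξ : E (Fin (m + 1))} {l : ℝ}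
    (hU : DifferentiableAt ℝ U (y + l • ξ)) :
    HasDerivAt (fun l : ℝ => U (y + l • ξ)) (fderiv ℝ U (y + l • ξ) ξ) l := by
  have h1 : HasDerivAt (fun l : ℝ => y + l • ξ) ξ l := by
    simpa using ((hasDerivAt_id l).smul_const ξ).const_add y
  exact HasFDerivAt.comp_hasDerivAt (l := U) (f := fun l : ℝ => y + l • ξ) l hU.hasFDerivAt h1

/-- the two ends of the vertical segment are on different sides of the level set -/
theorem cone_end {U : E (Fin (m + 1)) → ℝ} {t R : ℝ} (hU : ContDiffOn ℝ ∞ U (ball 0 R))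
    (hc : Cone U t R) {z0 : E (Fin (m + 1))} (hz0 : ‖z0‖ < R / 8) (h0 : U z0 = t)
    {z : E (Fin (m + 1))} (hz : ‖z‖ < R / 4) {σ : ℝ} (hσ : σ = 1 ∨ σ = -1) :
    0 < σ * (U (rep z (σ * (R / 2))) - t - z 0) := by
  have hR : 0 < R := by linarith [norm_nonneg z0]
  have hσ1 : |σ| = 1 := by rcases hσ with rfl | rfl <;> simp
  have hσ2 : σ * σ = 1 := by rcases hσ with rfl | rfl <;> simp
  set y := rep z (σ * (R / 2)) with hy
  set ξ := y - z0 with hξ
  have hyn : ‖y‖ < R := by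
    have h1 := norm_rep_le z (σ * (R / 2))
    rw [abs_mul, hσ1, abs_of_pos (by linarith : 0 < R / 2)] at h1
    linarith [norm_rep_zero_le z]
  have hin : ∀ l ∈ Icc (0 : ℝ) 1, ‖z0 + l • ξ‖ < R := by
    intro l hl
    have := (convex_ball (0 : E (Fin (m + 1))) R).add_smul_sub_mem
      (mem_ball_zero_iff.2 (by linarith : ‖z0‖ < R)) (mem_ball_zero_iff.2 hyn) hl
    exact mem_ball_zero_iff.1 this
  have hs : |z 0| < R / 4 := (abs_zero_le_norm z).trans_lt hz
  have hx0 : 3 * R / 8 ≤ σ * ξ 0 := by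
    have e : σ * ξ 0 = R / 2 - σ * z0 0 := by
      have : ξ 0 = σ * (R / 2) - z0 0 := by simp [hξ, hy]
      rw [this]; linear_combination (R / 2) * hσ2
    have : σ * z0 0 ≤ |σ * z0 0| := le_abs_self _
    rw [abs_mul, hσ1] at this
    linarith [abs_zero_le_norm z0]
  have hx1 : ‖rep ξ 0‖ ≤ 3 * R / 8 := by
    have e : rep ξ 0 = rep z 0 - rep z0 0 := by
      ext i; refine Fin.cases ?_ (fun i => ?_) i <;> simp [hξ, hy]
    rw [e]
    linarith [norm_sub_le (rep z 0) (rep z0 0), norm_rep_zero_le z, norm_rep_zero_le z0]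
  have key := pos_of_deriv_pos (f := fun l : ℝ => σ * (U (z0 + l • ξ) - t - l * z 0))
    (f' := fun l => σ * (fderiv ℝ U (z0 + l • ξ) ξ - z 0)) (a := 0) (b := 1) ?_ ?_ (by simp [h0])
    1 ⟨one_pos, le_rfl⟩
  · simpa [hξ] using key
  · intro l hl
    have hd : DifferentiableAt ℝ U (z0 + l • ξ) :=
      (hU.contDiffAt (isOpen_ball.mem_nhds (mem_ball_zero_iff.2 (hin l hl)))).differentiableAt
        (by simp)
    have := (((hasDerivAt_line hd).sub_const t).sub
      ((hasDerivAt_id l).mul_const (z 0))).const_mul σ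
    simpa using this
  · intro l hl hf
    have hσ0 : σ ≠ 0 := by rcases hσ with rfl | rfl <;> simp
    have e : U (z0 + l • ξ) - t = l * z 0 := by
      have := (mul_eq_zero.1 hf).resolve_left hσ0
      linarith
    have hlt : |U (z0 + l • ξ) - t| < R := by
      rw [e, abs_mul, abs_of_nonneg hl.1]
      nlinarith [abs_nonneg (z 0), hl.1, hl.2]
    obtain ⟨c1, c2⟩ := hc _ (hin l hl) hlt
    set A := fderiv ℝ U (z0 + l • ξ) with hA
    have c3 := c2 (rep ξ 0) (rep_zero _ _)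
    have e2 : A ξ = A (rep ξ 0) + ξ 0 * A (ee 0) := by
      conv_lhs => rw [← rep_self ξ, rep_eq_add]
      rw [map_add, map_smul, smul_eq_mul]
    have b1 : -|A (rep ξ 0)| ≤ σ * A (rep ξ 0) := by
      have := neg_abs_le (σ * A (rep ξ 0))
      rwa [abs_mul, hσ1, one_mul] at this
    have b2 : σ * z 0 ≤ |z 0| := by
      have := le_abs_self (σ * z 0)
      rwa [abs_mul, hσ1, one_mul] at this
    have b3 : A (ee 0) * ‖rep ξ 0‖ ≤ A (ee 0) * (3 * R / 8) :=
      mul_le_mul_of_nonneg_left hx1 (by linarith)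
    have b4 : 3 * R / 8 * A (ee 0) ≤ σ * ξ 0 * A (ee 0) :=
      mul_le_mul_of_nonneg_right hx0 (by linarith)
    have b5 : 4 * R ≤ A (ee 0) * R := mul_le_mul_of_nonneg_right c1 hR.le
    show 0 < σ * (A ξ - z 0)
    rw [e2]
    nlinarith

/-- the level sets of `U` are graphs -/
theorem exists_graph {U : E (Fin (m + 1)) → ℝ} {t R : ℝ} (hU : ContDiffOn ℝ ∞ U (ball 0 R))
    (hc : Cone U t R) {z0 : E (Fin (m + 1))} (hz0 : ‖z0‖ < R / 8) (h0 : U z0 = t) :
    ∃ (g : OpenPartialHomeomorph (E (Fin (m + 1))) (E (Fin (m + 1)))) (w : E (Fin (m + 1)) → ℝ),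
      g.source = {y | |y 0| < R / 2 ∧ ‖rep y (U y - t)‖ < R / 4} ∧ g.target = ball 0 (R / 4) ∧
      (∀ y, g y = rep y (U y - t)) ∧ (∀ z ∈ g.target, g.symm z = rep z (w z)) ∧
      ContDiffOn ℝ ∞ g g.source ∧ ContDiffOn ℝ ∞ g.symm g.target ∧
      ContDiffOn ℝ ∞ w (ball 0 (R / 4)) ∧
      ∀ z ∈ ball (0 : E (Fin (m + 1))) (R / 4),
        |w z| < R / 2 ∧ U (rep z (w z)) = t + z 0 ∧ ‖gradient w z‖ ≤ 1 := by
  have hR : 0 < R := by linarith [norm_nonneg z0]
  set S : Set (E (Fin (m + 1))) := {y | |y 0| < R / 2 ∧ ‖rep y (U y - t)‖ < R / 4} with hS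
  have hline : ∀ y ∈ S, ∀ h : ℝ, |h| ≤ R / 2 → ‖rep y h‖ < R := by
    intro y hy h hh
    have h1 := norm_rep_le y h
    have h2 := norm_rep_zero_le (rep y (U y - t))
    rw [rep_rep] at h2
    linarith [hy.2]
  have hSb : S ⊆ ball 0 R := fun y hy => by
    have := hline y hy (y 0) hy.1.le
    rw [rep_self] at this
    exact mem_ball_zero_iff.2 this
  have hSt : ∀ y ∈ S, |U y - t| < R := fun y hy => by
    have := abs_zero_le_norm (rep y (U y - t))
    rw [rep_zero] at this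
    linarith [hy.2]
  have hTh : ContDiffOn ℝ ∞ (fun y => rep y (U y - t)) (ball 0 R) :=
    contDiff_rep.comp_contDiffOn (contDiffOn_id.prodMk (hU.sub contDiffOn_const))
  have hdiff : ∀ y : E (Fin (m + 1)), ‖y‖ < R → DifferentiableAt ℝ U y := fun y hy =>
    (hU.contDiffAt (isOpen_ball.mem_nhds (mem_ball_zero_iff.2 hy))).differentiableAt (by simp)
  have hSo : IsOpen S := by
    have h1 := hTh.continuousOn.isOpen_inter_preimage isOpen_ball
      (isOpen_ball (x := (0 : E (Fin (m + 1)))) (ε := R / 4))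
    have h2 : IsOpen {y : E (Fin (m + 1)) | |y 0| < R / 2} :=
      isOpen_lt (by fun_prop) continuous_const
    have e : S = (ball 0 R ∩ (fun y => rep y (U y - t)) ⁻¹' ball 0 (R / 4)) ∩
        {y : E (Fin (m + 1)) | |y 0| < R / 2} := by
      refine Subset.antisymm (fun y hy => ⟨⟨hSb hy, mem_ball_zero_iff.2 hy.2⟩, hy.1⟩) ?_
      rintro y ⟨⟨-, hy2⟩, hy1⟩
      exact ⟨hy1, mem_ball_zero_iff.1 hy2⟩
    rw [e]
    exact h1.inter h2
  have hlt : ∀ y1 ∈ S, ∀ y2 ∈ S, rep y1 (U y1 - t) = rep y2 (U y2 - t) → ¬ y1 0 < y2 0 := by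
    intro y1 hy1 y2 hy2 he hlt
    have e1 : ∀ h, rep y1 h = rep y2 h := fun h => by
      rw [← rep_rep y1 (U y1 - t), he, rep_rep]
    have e2 : U y1 = U y2 := by
      have := congrArg (fun y : E (Fin (m + 1)) => y 0) he
      simp only [rep_zero] at this
      linarith
    have hin : ∀ h ∈ Icc (y1 0) (y2 0), ‖rep y1 0 + h • ee 0‖ < R := by
      intro h hh
      rw [← rep_eq_add]
      refine hline y1 hy1 h (abs_le.2 ⟨?_, ?_⟩)
      · linarith [(abs_lt.1 hy1.1).1, hh.1]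
      · linarith [(abs_lt.1 hy2.1).2, hh.2]
    have key := pos_of_deriv_pos (f := fun h : ℝ => U (rep y1 0 + h • ee 0) - U y1)
      (f' := fun h => fderiv ℝ U (rep y1 0 + h • ee 0) (ee 0)) (a := y1 0) (b := y2 0)
      (fun h hh => (hasDerivAt_line (hdiff _ (hin h hh))).sub_const _) ?_
      (by simp only [← rep_eq_add, rep_self, sub_self]) (y2 0) ⟨hlt, le_rfl⟩
    · simp only [← rep_eq_add, e1, rep_self, e2, sub_self, lt_self_iff_false] at key
    · intro h hh hf
      have e3 : U (rep y1 0 + h • ee 0) = U y1 := sub_eq_zero.1 hf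
      have := (hc _ (hin h hh) (by rw [e3]; exact hSt y1 hy1)).1
      show 0 < fderiv ℝ U (rep y1 0 + h • ee 0) (ee 0)
      linarith
  have hinj : InjOn (fun y => rep y (U y - t)) S := by
    intro y1 hy1 y2 hy2 he
    have e0 : y1 0 = y2 0 :=
      le_antisymm (not_lt.1 (hlt y2 hy2 y1 hy1 he.symm)) (not_lt.1 (hlt y1 hy1 y2 hy2 he))
    have he' : rep y1 (U y1 - t) = rep y2 (U y2 - t) := he
    rw [← rep_self y1, ← rep_rep y1 (U y1 - t), he', rep_rep, e0, rep_self]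
  have hD : ∀ y ∈ S, Injective (fderiv ℝ (fun y => rep y (U y - t)) y) := by
    intro y hy
    have hyR := mem_ball_zero_iff.1 (hSb hy)
    obtain ⟨L, hL, hLv⟩ := hasFDerivAt_rep ((hdiff y hyR).hasFDerivAt.sub_const t)
    rw [hL.fderiv, injective_iff_map_eq_zero]
    intro v hv
    rw [hLv] at hv
    have a1 : fderiv ℝ U y v = 0 := by
      simpa using congrArg (fun y : E (Fin (m + 1)) => y 0) hv
    have a2 : rep v 0 = 0 := by rw [← a1]; exact hv
    have a3 : v = v 0 • ee 0 := by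
      conv_lhs => rw [← rep_self v, rep_eq_add, a2, zero_add]
    have a4 := (hc y hyR (hSt y hy)).1
    rw [a3, map_smul, smul_eq_mul] at a1
    have a5 : v 0 = 0 := (mul_eq_zero.1 a1).resolve_right (by linarith)
    rw [a3, a5, zero_smul]
  obtain ⟨g, hg1, hg2, hg3, hg4⟩ := exists_diffeo hSo (hTh.mono hSb) hinj hD
  have htg : g.target = ball 0 (R / 4) := by
    rw [hg3]
    refine Subset.antisymm ?_ fun z hz => ?_
    · rintro _ ⟨y, hy, rfl⟩
      exact mem_ball_zero_iff.2 hy.2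
    · have hz' := mem_ball_zero_iff.1 hz
      have p1 := cone_end hU hc hz0 h0 hz' (σ := 1) (Or.inl rfl)
      have p2 := cone_end hU hc hz0 h0 hz' (σ := -1) (Or.inr rfl)
      have hcont : ContinuousOn (fun h : ℝ => U (rep z h)) (Icc (-1 * (R / 2)) (1 * (R / 2))) := by
        refine hU.continuousOn.comp
          (contDiff_rep.continuous.comp (continuous_const.prodMk continuous_id)).continuousOn ?_
        intro h hh
        have h1 := norm_rep_le z h
        have h2 : |h| ≤ R / 2 := abs_le.2 ⟨by linarith [hh.1], by linarith [hh.2]⟩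
        exact mem_ball_zero_iff.2 (by linarith [norm_rep_zero_le z])
      obtain ⟨h, hh, hU'⟩ := intermediate_value_Ioo (by linarith) hcont
        (show t + z 0 ∈ Ioo (U (rep z (-1 * (R / 2)))) (U (rep z (1 * (R / 2)))) from
          ⟨by linarith, by linarith⟩)
      have e : rep (rep z h) (U (rep z h) - t) = z := by
        have : U (rep z h) - t = z 0 := by
          have : U (rep z h) = t + z 0 := hU'
          linarith
        rw [this, rep_rep, rep_self]
      refine ⟨rep z h, ⟨?_, ?_⟩, e⟩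
      · rw [rep_zero]; exact abs_lt.2 ⟨by linarith [hh.1], by linarith [hh.2]⟩
      · rw [e]; exact hz'
  have hsy : ∀ z ∈ g.target, g.symm z ∈ S ∧ rep (g.symm z) (U (g.symm z) - t) = z := fun z hz =>
    ⟨hg2 ▸ g.map_target hz, by rw [← hg1]; exact g.right_inv hz⟩
  have hrep : ∀ z ∈ g.target, g.symm z = rep z (g.symm z 0) := fun z hz => by
    conv_rhs => rw [← (hsy z hz).2, rep_rep]
    rw [(hsy z hz).2, rep_self]
  have hw : ContDiffOn ℝ ∞ (fun z => g.symm z 0) (ball 0 (R / 4)) :=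
    (EuclideanSpace.proj (0 : Fin (m + 1)) : E (Fin (m + 1)) →L[ℝ] ℝ).contDiff.comp_contDiffOn
      (htg ▸ hg4)
  have hlev : ∀ z ∈ g.target, U (rep z (g.symm z 0)) = t + z 0 := fun z hz => by
    rw [← hrep z hz]
    have := congrArg (fun y : E (Fin (m + 1)) => y 0) (hsy z hz).2
    simp only [rep_zero] at this
    linarith
  refine ⟨g, fun z => g.symm z 0, hg2, htg, hg1, hrep, ?_, hg4, hw, fun z hz => ?_⟩
  · rw [hg2]; exact (hTh.mono hSb).congr fun y _ => hg1 y
  have hz' : z ∈ g.target := htg ▸ hz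
  refine ⟨(hsy z hz').1.1, hlev z hz', ?_⟩
  have hwd : DifferentiableAt ℝ (fun z => g.symm z 0) z :=
    (hw.contDiffAt (isOpen_ball.mem_nhds hz)).differentiableAt (by simp)
  obtain ⟨L, hL, hLv⟩ := hasFDerivAt_rep hwd.hasFDerivAt
  have hy := (hsy z hz').1
  have hyR := mem_ball_zero_iff.1 (hSb hy)
  obtain ⟨c1, c2⟩ := hc _ hyR (hSt _ hy)
  have hUd := (hdiff _ hyR).hasFDerivAt
  set A := fderiv ℝ U (g.symm z) with hA
  rw [hrep z hz'] at hUd
  have d1 := HasFDerivAt.comp (g := U) (f := fun y => rep y (g.symm y 0)) z hUd hL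
  have d2 : HasFDerivAt (U ∘ fun y => rep y (g.symm y 0))
      (EuclideanSpace.proj (0 : Fin (m + 1)) : E (Fin (m + 1)) →L[ℝ] ℝ) z := by
    refine ((EuclideanSpace.proj (0 : Fin (m + 1)) :
      E (Fin (m + 1)) →L[ℝ] ℝ).hasFDerivAt.const_add t).congr_of_eventuallyEq ?_
    filter_upwards [g.open_target.mem_nhds hz'] with y hy using hlev y hy
  have d3 := d1.unique d2
  rw [gradient, LinearIsometryEquiv.norm_map]
  refine ContinuousLinearMap.opNorm_le_bound _ zero_le_one fun v => ?_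
  set D := fderiv ℝ (fun z => g.symm z 0) z v with hD'
  have d4 : A (rep v 0) + D * A (ee 0) = v 0 := by
    have := congrArg (fun T : E (Fin (m + 1)) →L[ℝ] ℝ => T v) d3
    simp only [ContinuousLinearMap.comp_apply, hLv] at this
    rw [rep_eq_add, map_add, map_smul, smul_eq_mul] at this
    exact this
  have c3 := c2 (rep v 0) (rep_zero _ _)
  have b1 : A (ee 0) * ‖rep v 0‖ ≤ A (ee 0) * ‖v‖ :=
    mul_le_mul_of_nonneg_left (norm_rep_zero_le v) (by linarith)
  have b2 : |D| * A (ee 0) ≤ ‖v‖ + |A (rep v 0)| := by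
    have e : D * A (ee 0) = v 0 - A (rep v 0) := by linarith
    have : |D * A (ee 0)| ≤ |v 0| + |A (rep v 0)| := by rw [e]; exact abs_sub _ _
    rw [abs_mul, abs_of_pos (by linarith : 0 < A (ee 0))] at this
    linarith [abs_zero_le_norm v]
  rw [Real.norm_eq_abs, one_mul]
  by_contra hn
  push Not at hn
  have b3 : ‖v‖ * A (ee 0) < |D| * A (ee 0) := mul_lt_mul_of_pos_right hn (by linarith)
  nlinarith [norm_nonneg v]

end Crest.Agent.N222.Lm

end
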