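import Crest.Agent.N222.B.Defs2
import Crest.Agent.N222.B.E1
import Crest.Agent.N222.F.Lip
import Crest.Agent.N222.F.Ker
import Crest.Agent.N222.L.Bx1

/-!
# Row 222, limit block (helper18): the chart in which the cone condition holds
(proofs by helper67)
-/

set_option autoImplicit false
open MeasureTheory Set Filter Topology Function Metric
open scoped ContDiff InnerProductSpace RealInnerProductSpace

noncomputable section

namespace Crest.Agent.N222.Lm

/-- points of height `t` converge to `p` -/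
theorem exists_pts (hC : CylStmt) : AllSeq fun _ _ _ _ X _ _ _ _ _ _ _ _ _ 𝒰 u =>
    ∀ p ∈ Sb 𝒰 u, ∀ t : ℝ, ∃ q : ℕ → X, Tendsto q 𝒰 (𝓝 p) ∧ ∀ᶠ j in (𝒰 : Filter ℕ), u j (q j) = t := by
  intro m ι _ _ X _ _ _ _ _ _ M F h Λ 𝒰 u τ s hinj hF hseq p hp t
  have hx : Continuous fun q => ‖M.x q - M.x p‖ := (M.continuous_x.sub continuous_const).norm
  have key : ∀ j, ∃ q, ∀ q', u j q' = t → u j q = t ∧ ‖M.x q - M.x p‖ ≤ ‖M.x q' - M.x p‖ := by
    intro j
    by_cases hne : ({q | u j q = t} : Set X).Nonempty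
    · obtain ⟨q, hq, hmin⟩ := (isClosed_eq (hseq.adm j).sm.continuous
        continuous_const).isCompact.exists_isMinOn hne hx.continuousOn
      exact ⟨q, fun q' hq' => ⟨hq, hmin hq'⟩⟩
    · exact ⟨p, fun q' hq' => (hne ⟨q', hq'⟩).elim⟩
  choose q hq using key
  have h1 := (hC m ι X M F h Λ 𝒰 u τ s hinj hF hseq).1 p hp t
  refine ⟨q, (Imm.tendsto_iff_x hinj).2 (Metric.tendsto_nhds.2 fun ε hε => ?_), ?_⟩
  · filter_upwards [h1 {q' | ‖M.x q' - M.x p‖ < ε}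
      ((isOpen_lt hx continuous_const).mem_nhds (by simpa using hε))] with j ⟨q', h2, h3⟩
    rw [dist_eq_norm]
    exact (hq j q' h3).2.trans_lt h2
  · filter_upwards [h1 univ univ_mem] with j ⟨q', _, h3⟩
    exact (hq j q' h3).1

section Aux

variable {d : ℕ} {ι : Type} [Fintype ι] [DecidableEq ι] {X : Type} [TopologicalSpace X]
  [MeasurableSpace X] {M : Imm d ι X}

omit [DecidableEq ι] [MeasurableSpace X] in
theorem norm_gx_sub_le (u : X → ℝ) (q p : X) (t : ℝ) :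
    ‖up (u q) (M.x q) - up t (M.x p)‖ ≤ |u q - t| + ‖M.x q - M.x p‖ := by
  classical
  rw [up_sub]; exact norm_up_le _ _

omit [DecidableEq ι] [MeasurableSpace X] in
theorem ev_gx_near {𝒰 : Filter ℕ} {u : ℕ → X → ℝ} {q : ℕ → X} {p : X} {t r : ℝ} (hr : 0 < r)
    (hq : Tendsto q 𝒰 (𝓝 p)) (ht : ∀ᶠ j in 𝒰, u j (q j) = t) :
    ∀ᶠ j in 𝒰, ‖M.gx (u j) (q j) - up t (M.x p)‖ < r := by
  filter_upwards [ht, Metric.tendsto_nhds.1 ((M.continuous_x.tendsto p).comp hq) r hr]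
    with j h1 h2
  refine (norm_gx_sub_le (u j) (q j) p t).trans_lt ?_
  rw [h1, sub_self, abs_zero, zero_add, ← dist_eq_norm]
  exact h2

theorem down_nuv (u : X → ℝ) (q : X) : -down (M.nuv u q) = M.vv u q • M.grad u q := by
  ext a
  change - -M.Xf u a q = M.vv u q * M.pre.D a u q
  rw [neg_neg, Imm.Xf_apply]

end Aux

/-- somewhere in every ball the graph is steep -/
theorem exists_steep (hC : CylStmt) (hS : SheetStmt) (hM : Mon2Stmt) :
    AllSeq fun _ _ _ _ _ _ _ _ _ _ _ M _ _ 𝒰 u => ∀ p ∈ Sb 𝒰 u, ∀ t ρ ε : ℝ, 0 < ρ → 0 < ε →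
      ∀ᶠ j in (𝒰 : Filter ℕ), ∃ q, ‖M.gx (u j) q - up t (M.x p)‖ < ρ ∧ M.vv (u j) q ≤ ε := by
  intro m ι _ _ X _ _ _ _ _ _ M F h Λ 𝒰 u τ s hinj hF hseq p hp t ρ ε hρ hε
  obtain ⟨q, hq, hqt⟩ := exists_pts hC m ι X M F h Λ 𝒰 u τ s hinj hF hseq p hp t
  obtain ⟨C, -, hSh⟩ := hS (m + 1) ι X M F hinj hF Λ
  set r := ρ / 2 with hr
  have hr0 : 0 < r := by positivity
  have hc : 0 < ε * (cPhi (m + 1) * r ^ (m + 1) / Real.exp (C * r)) := by
    have := cPhi_pos (m + 1)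
    positivity
  filter_upwards [hqt, ev_gx_near (M := M) hr0 hq hqt,
    (hseq.thin (|t| + r)).eventually (gt_mem_nhds hc)] with j h1 h2 h3
  by_contra hcon
  push Not at hcon
  have hu := (hseq.adm j).sm
  set Φ : X → ℝ := fun q' => Phi (‖M.gx (u j) q' - M.gx (u j) (q j)‖ ^ 2 / r ^ 2) with hΦ
  have hΦc : Continuous Φ := by
    have := (Imm.sm_gx hu).continuous
    fun_prop
  have hΦ0 : ∀ q', r ≤ ‖M.gx (u j) q' - M.gx (u j) (q j)‖ → Φ q' = 0 := fun q' h' =>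
    EP.Phi_ball_zero hr0 h'
  have h4 : cPhi (m + 1) * r ^ (m + 1) / Real.exp (C * r) ≤ ∫ q', Φ q' ∂M.gmu (u j) := by
    have := EP.gTh_low hM hinj hu (hSh _ (hseq.adm j)) (q j) hr0
    rw [Imm.gTh, ← mul_div_assoc, le_div_iff₀ (by positivity)] at this
    rw [div_le_iff₀' (Real.exp_pos _)]
    exact this
  have h5 : ε * ∫ q', Φ q' ∂M.gmu (u j) ≤ ∫ q', Φ q' ∂M.mu := by
    rw [← Imm.integral_vv_mul hu, ← integral_const_mul]
    refine integral_mono (EP.integrable_gmu hu (by fun_prop))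
      (EP.integrable_gmu hu (hu.vv.continuous.mul hΦc)) fun q' => ?_
    rcases le_or_gt r ‖M.gx (u j) q' - M.gx (u j) (q j)‖ with h' | h'
    · simp [hΦ0 q' h']
    · refine mul_le_mul_of_nonneg_right (hcon q' ?_).le (Phi_nonneg _)
      have := norm_sub_le_norm_sub_add_norm_sub (M.gx (u j) q') (M.gx (u j) (q j)) (up t (M.x p))
      linarith
  have hm : MeasurableSet {q' | |u j q'| ≤ |t| + r} :=
    (isClosed_le hu.continuous.abs continuous_const).measurableSet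
  have h6 : ∫ q', Φ q' ∂M.mu ≤ M.mu.real {q' | |u j q'| ≤ |t| + r} := by
    rw [← integral_indicator_one hm]
    refine integral_mono (hΦc.integrable_of_hasCompactSupport (isClosed_tsupport _).isCompact)
      ((integrable_const (1 : ℝ)).indicator hm) fun q' => ?_
    rcases le_or_gt r ‖M.gx (u j) q' - M.gx (u j) (q j)‖ with h' | h'
    · rw [hΦ0 q' h']
      exact indicator_nonneg (fun _ _ => zero_le_one) _
    · have h7 : |u j q' - u j (q j)| ≤ _ := Imm.abs_u_sub_le (M := M) (u j) q' (M.gx (u j) (q j))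
      rw [h1] at h7
      have h8 : |u j q'| ≤ |t| + r := by
        have := abs_sub_abs_le_abs_sub (u j q') t
        linarith
      rw [indicator_of_mem (show q' ∈ {q' | |u j q'| ≤ |t| + r} from h8)]
      exact Phi_le_one _
  have := mul_le_mul_of_nonneg_left h4 hε.le
  linarith

/-- a chart whose first axis is a given unit tangent vector -/
theorem exists_axis_chart {m : ℕ} {ι : Type} [Fintype ι] {X : Type} [TopologicalSpace X]
    (M : Imm (m + 1) ι X) (p : X) {ξ : E ι} (h1 : ‖ξ‖ = 1) (hξ : M.PL p ξ = ξ) :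
    ∃ (e : OpenPartialHomeomorph X (E (Fin (m + 1)))) (L : E (Fin (m + 1)) →ₗᵢ[ℝ] E ι),
      IsChart M.x e ∧ p ∈ e.source ∧ e p = 0 ∧ L (ee 0) = ξ ∧
      fderiv ℝ (M.x ∘ e.symm) 0 = L.toContinuousLinearMap := by
  obtain ⟨e, L, he, hp, hL, he0, hD⟩ := M.exists_proj_chart p
  obtain ⟨a, rfl⟩ := (hL ξ).1 hξ
  have ha : ‖(ee 0 : E (Fin (m + 1)))‖ = ‖a‖ := by rw [← L.norm_map a, h1]; simp
  obtain ⟨O, hO⟩ : ∃ O : E (Fin (m + 1)) ≃ₗᵢ[ℝ] E (Fin (m + 1)), O (ee 0) = a :=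
    ⟨_, Submodule.reflection_sub ha⟩
  refine ⟨e.trans O.symm.toHomeomorph.toOpenPartialHomeomorph, L.comp O.toLinearIsometry,
    he.trans _ O.symm.contDiff.contDiffOn O.contDiff.contDiffOn, ⟨hp, mem_univ _⟩, ?_,
    congrArg L hO, ?_⟩
  · change O.symm (e p) = 0
    rw [he0, sub_self, map_zero, map_zero]
  · change fderiv ℝ ((M.x ∘ e.symm) ∘ O.toContinuousLinearEquiv) 0 = _
    rw [ContinuousLinearEquiv.comp_right_fderiv, map_zero, hD]
    rfl

theorem cone_alg {m : ℕ} {ι : Type} [Fintype ι] {Xv ξ : E ι} {L : E (Fin (m + 1)) →ₗᵢ[ℝ] E ι}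
    {T : E (Fin (m + 1)) →L[ℝ] E ι} {G : E (Fin (m + 1)) →L[ℝ] ℝ} {w : ℝ} (hw0 : 0 < w)
    (hw : w ≤ 2 / 100) (hL : L (ee 0) = ξ) (hX : ‖Xv - ξ‖ ≤ 3 / 100)
    (hT : ‖T - L.toContinuousLinearMap‖ ≤ 1 / 100) (hG : ∀ v, w * G v = ⟪Xv, T v⟫) :
    4 ≤ G (ee 0) ∧ ∀ v : E (Fin (m + 1)), v 0 = 0 → 4 * |G v| ≤ G (ee 0) * ‖v‖ := by
  have hξ : ‖ξ‖ = 1 := by rw [← hL, L.norm_map]; simp
  have key : ∀ v, |w * G v - v 0| ≤ ‖v‖ / 20 := fun v => by
    have h1 : ‖T v - L v‖ ≤ 1 / 100 * ‖v‖ := (T - L.toContinuousLinearMap).le_of_opNorm_le hT v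
    have h2 : ‖T v‖ ≤ 101 / 100 * ‖v‖ := by
      have := norm_sub_norm_le (T v) (L v)
      rw [L.norm_map] at this
      linarith
    have h3 : ⟪ξ, L v⟫ = v 0 := by
      rw [← hL, L.inner_map_map, EuclideanSpace.inner_single_left]; simp
    have h4 : w * G v - v 0 = ⟪Xv - ξ, T v⟫ + ⟪ξ, T v - L v⟫ := by
      rw [hG, ← h3, inner_sub_left, inner_sub_right]; ring
    have h5 := abs_real_inner_le_norm (Xv - ξ) (T v)
    have h6 := abs_real_inner_le_norm ξ (T v - L v)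
    have h7 := mul_le_mul hX h2 (norm_nonneg _) (by norm_num)
    rw [hξ] at h6
    rw [h4]
    refine (abs_add_le _ _).trans ?_
    linarith [norm_nonneg v]
  have h0 : 19 / 20 ≤ w * G (ee 0) := by
    have := (abs_le.1 (key (ee 0))).1
    simp only [PiLp.norm_single, norm_one, PiLp.single_apply, if_true] at this
    linarith
  have hG0 : 0 < G (ee 0) := (mul_pos_iff_of_pos_left hw0).1 (by linarith)
  refine ⟨by nlinarith, fun v hv => le_of_mul_le_mul_left ?_ hw0⟩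
  have := key v
  rw [hv, sub_zero, abs_mul, abs_of_pos hw0] at this
  nlinarith [norm_nonneg v]

theorem exists_cone (hC : CylStmt) (hS : SheetStmt) (hM : Mon2Stmt) :
    AllSeq fun m _ _ _ X _ _ _ _ _ _ M _ _ 𝒰 u => ∀ p ∈ Sb 𝒰 u, ∀ t, M.Reg 𝒰 u p t →
      ∃ (e : OpenPartialHomeomorph X (E (Fin (m + 1)))) (R C : ℝ), IsChart M.x e ∧ p ∈ e.source ∧
        e p = 0 ∧ 0 < R ∧ closedBall 0 R ⊆ e.target ∧ ∀ᶠ j in (𝒰 : Filter ℕ),
          Cone (u j ∘ e.symm) t R ∧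
          ∀ z, ‖z‖ < R → |u j (e.symm z) - t| < R → M.a2 (u j) (e.symm z) ≤ C := by
  intro m ι _ _ X _ _ _ _ _ _ M F h Λ 𝒰 u τ s hinj hF hseq p hp t ⟨ρ, C, hρ, hreg⟩
  obtain ⟨q, hq, hqt⟩ := exists_pts hC m ι X M F h Λ 𝒰 u τ s hinj hF hseq p hp t
  have hu := fun j => (hseq.adm j).sm
  have hnear := ev_gx_near (M := M) hρ hq hqt
  -- `vv` is small in the ball
  have hvv : ∀ᶠ j in (𝒰 : Filter ℕ), ∀ q', ‖M.gx (u j) q' - up t (M.x p)‖ < ρ →
      M.vv (u j) q' ≤ 2 / 100 := by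
    filter_upwards [hreg, exists_steep hC hS hM m ι X M F h Λ 𝒰 u τ s hinj hF hseq p hp t ρ
      (1 / 100) hρ (by norm_num)] with j h1 ⟨q0, h2, h3⟩ q' h4
    have h5 : |M.vv (u j) q' - M.vv (u j) q0| ≤ 1 / 100 :=
      (abs_none_le (M.nuv (u j) q' - M.nuv (u j) q0)).trans (h1 q' q0 h4 h2).2
    linarith [(abs_le.1 h5).2]
  -- the limit normal
  obtain ⟨n, hn1, hn⟩ := (isCompact_sphere (0 : E (Option ι)) 1).ultrafilter_le_nhds
    (𝒰.map fun j => M.nuv (u j) (q j)) (le_principal_iff.2 (mem_map.2 (univ_mem' fun j => by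
      simpa using Imm.norm_nuv (hu j) (q j))))
  replace hn : Tendsto (fun j => M.nuv (u j) (q j)) 𝒰 (𝓝 n) := hn
  rw [mem_sphere_zero_iff_norm] at hn1
  have hn0 : |n none| ≤ 2 / 100 := by
    have h1 : Tendsto (fun j => |M.nuv (u j) (q j) none|) 𝒰 (𝓝 |n none|) :=
      ((by fun_prop : Continuous fun w : E (Option ι) => |w none|).tendsto n).comp hn
    refine le_of_tendsto h1 ?_
    filter_upwards [hvv, hnear] with j h2 h3
    change |M.vv (u j) (q j)| ≤ _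
    rw [abs_of_pos (M.vv_pos _ _)]
    exact h2 _ h3
  have hdn : Tendsto (fun j => down (M.nuv (u j) (q j))) 𝒰 (𝓝 (down n)) :=
    ((contDiff_down (ι := ι)).continuous.tendsto n).comp hn
  have hPL : M.PL p (down n) = down n := by
    have h0 : Continuous fun w : X × E ι => M.PL w.1 w.2 :=
      (M.sm_PL.continuous.comp continuous_fst).clm_apply continuous_snd
    have h1 := (h0.tendsto (p, down n)).comp (hq.prodMk_nhds hdn)
    refine tendsto_nhds_unique h1 (hdn.congr fun j => ?_)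
    exact (congrArg down (Imm.PbL_nuv (hu j) (q j))).symm
  have hd1 : 99 / 100 ≤ ‖down n‖ := by
    have h1 := norm_sq_up (n none) (down n)
    rw [up_down, hn1, ← sq_abs (n none)] at h1
    refine abs_le_of_sq_le_sq' ?_ (norm_nonneg _) |>.2
    nlinarith [abs_nonneg (n none)]
  have hd2 : ‖down n‖ ≤ 1 := hn1 ▸ norm_down_le n
  have hd0 : 0 < ‖down n‖ := by linarith
  obtain ⟨e, L, he, hpe, he0, hL, hD⟩ := exists_axis_chart M p (ξ := -(‖down n‖⁻¹ • down n))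
    (by rw [norm_neg, norm_smul, norm_inv, norm_norm, inv_mul_cancel₀ hd0.ne'])
    (by rw [map_neg, map_smul, hPL])
  have hξ : ‖-down n - -(‖down n‖⁻¹ • down n)‖ ≤ 1 / 100 := by
    have : -down n - -(‖down n‖⁻¹ • down n) = (‖down n‖⁻¹ - 1) • down n := by
      rw [sub_smul, one_smul]; abel
    rw [this, norm_smul, Real.norm_eq_abs, abs_of_nonneg (sub_nonneg.2 (one_le_inv₀ hd0 |>.2 hd2)),
      sub_mul, inv_mul_cancel₀ hd0.ne']
    linarith
  have h0t : (0 : E (Fin (m + 1))) ∈ e.target := he0 ▸ e.map_source hpe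
  have hs0 : e.symm 0 = p := he0 ▸ e.left_inv hpe
  have hφ := he.contDiffAt h0t
  have ev : ∀ᶠ z in 𝓝 (0 : E (Fin (m + 1))), z ∈ e.target ∧ ‖M.x (e.symm z) - M.x p‖ < ρ / 2 ∧
      ‖fderiv ℝ (M.x ∘ e.symm) z - L.toContinuousLinearMap‖ < 1 / 100 := by
    filter_upwards [e.open_target.mem_nhds h0t,
      Metric.tendsto_nhds.1 hφ.continuousAt (ρ / 2) (by positivity),
      Metric.tendsto_nhds.1 (hφ.continuousAt_fderiv (by simp)) (1 / 100) (by norm_num)]
      with z h1 h2 h3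
    rw [dist_eq_norm] at h2 h3
    exact ⟨h1, by simpa [hs0] using h2, hD ▸ h3⟩
  obtain ⟨R0, hR0, hR⟩ := Metric.nhds_basis_closedBall.eventually_iff.1 ev
  refine ⟨e, min R0 (ρ / 2), C, he, hpe, he0, lt_min hR0 (by positivity),
    fun z hz => (hR (closedBall_subset_closedBall (min_le_left _ _) hz)).1, ?_⟩
  filter_upwards [hreg, hvv, hnear, Metric.tendsto_nhds.1 hn (1 / 100) (by norm_num)]
    with j h1 h2 h3 h4
  have hz : ∀ z : E (Fin (m + 1)), ‖z‖ < min R0 (ρ / 2) → z ∈ closedBall 0 R0 := fun z hz =>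
    mem_closedBall_zero_iff.2 (hz.le.trans (min_le_left _ _))
  have hb : ∀ z : E (Fin (m + 1)), ‖z‖ < min R0 (ρ / 2) → |u j (e.symm z) - t| < min R0 (ρ / 2) →
      ‖M.gx (u j) (e.symm z) - up t (M.x p)‖ < ρ := fun z hz1 hz2 => by
    have := norm_gx_sub_le (M := M) (u j) (e.symm z) p t
    have h5 := (hR (hz z hz1)).2.1
    have h6 := hz2.trans_le (min_le_right _ _)
    exact this.trans_lt (by linarith)
  refine ⟨fun z hz1 hz2 => ?_, fun z hz1 hz2 => (h1 _ _ (hb z hz1 hz2) h3).1⟩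
  have h5 := hb z hz1 hz2
  obtain ⟨hzt, -, hT⟩ := hR (hz z hz1)
  refine cone_alg (Xv := -down (M.nuv (u j) (e.symm z))) (M.vv_pos (u j) (e.symm z)) (h2 _ h5) hL
    ?_ hT.le fun v => ?_
  · have h6 := (norm_down_le _).trans (h1 _ _ h5 h3).2
    have h7 := (norm_down_le _).trans (dist_eq_norm (M.nuv (u j) (q j)) n ▸ h4).le
    rw [down_sub] at h6 h7
    have h8 : -down (M.nuv (u j) (e.symm z)) - -(‖down n‖⁻¹ • down n) =
        -(down (M.nuv (u j) (e.symm z)) - down (M.nuv (u j) (q j))) +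
          -(down (M.nuv (u j) (q j)) - down n) + (-down n - -(‖down n‖⁻¹ • down n)) := by abel
    rw [h8]
    refine norm_add₃_le.trans ?_
    rw [norm_neg, norm_neg]
    linarith
  · have h6 := Imm.fderiv_chart (u j) he (e.map_target hzt)
    rw [e.right_inv hzt] at h6
    rw [h6, down_nuv, real_inner_smul_left, ContinuousLinearMap.comp_apply, Imm.td_eq_inner]

end Crest.Agent.N222.Lm

end
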