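import Crest.Agent.N222.B.Defs2
import Crest.Agent.N222.F.Res
import Crest.Agent.N222.L.Bx1

/-!
# Row 222, limit block (helper18): the projection and its derivative are functions of the 2-jet
-/

set_option autoImplicit false
open MeasureTheory Set Filter Topology Function Metric
open scoped ContDiff InnerProductSpace RealInnerProductSpace

noncomputable section

namespace Crest.Agent.N222.Lm

variable {d m : ℕ} {κ : Type} [Fintype κ] [DecidableEq κ]

/-- the projection onto the range of `J` -/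
def PJ (J : E (Fin d) →L[ℝ] E κ) (b c : κ) : ℝ :=
  J (ContinuousLinearMap.adjoint (Lam J) (ee b)) c

/-- the derivative of the projection -/
def BJ (J : E (Fin d) →L[ℝ] E κ) (H : E (Fin d) →L[ℝ] E (Fin d) →L[ℝ] E κ) (a b c : κ) : ℝ :=
  fderiv ℝ (fun J' : E (Fin d) →L[ℝ] E κ => PJ J' b c) J
    (H (ContinuousLinearMap.adjoint (Lam J) (ee a)))

theorem contDiffAt_PJ {J : E (Fin d) →L[ℝ] E κ} (hJ : Injective J) (b c : κ) :
    ContDiffAt ℝ ∞ (fun J' : E (Fin d) →L[ℝ] E κ => PJ J' b c) J := by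
  have h1 : ContDiffAt ℝ ∞ (fun J' : E (Fin d) →L[ℝ] E κ =>
      ContinuousLinearMap.adjoint (Lam J')) J :=
    (contDiff_adjoint (κ := Fin d) (ι := κ)).contDiffAt.comp J (contDiffAt_Lam hJ)
  exact contDiffAt_euclidean.1 (contDiffAt_id.clm_apply (h1.clm_apply contDiffAt_const)) c

theorem continuousAt_PJ {J : E (Fin d) →L[ℝ] E κ} (hJ : Injective J) :
    ContinuousAt (PJ : (E (Fin d) →L[ℝ] E κ) → κ → κ → ℝ) J :=
  continuousAt_pi.2 fun b => continuousAt_pi.2 fun c => (contDiffAt_PJ hJ b c).continuousAt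

theorem continuousAt_BJ {J : E (Fin d) →L[ℝ] E κ} (hJ : Injective J)
    (H : E (Fin d) →L[ℝ] E (Fin d) →L[ℝ] E κ) : ContinuousAt
      (fun s : (E (Fin d) →L[ℝ] E κ) × (E (Fin d) →L[ℝ] E (Fin d) →L[ℝ] E κ) => BJ s.1 s.2) (J, H) := by
  refine continuousAt_pi.2 fun a => continuousAt_pi.2 fun b => continuousAt_pi.2 fun c => ?_
  have h1 := ((contDiffAt_PJ hJ b c).fderiv_right (m := 0) (by simp)).continuousAt
  have h2 : ContinuousAt (fun J' : E (Fin d) →L[ℝ] E κ => ContinuousLinearMap.adjoint (Lam J')) J :=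
    ((contDiff_adjoint (κ := Fin d) (ι := κ)).contDiffAt.comp J (contDiffAt_Lam hJ)).continuousAt
  exact (h1.comp_of_eq (continuousAt_fst (p := (J, H))) rfl).clm_apply (continuousAt_snd.clm_apply
    ((h2.comp_of_eq (continuousAt_fst (p := (J, H))) rfl).clm_apply continuousAt_const))

/-- chain rule for `PJ` along a map -/
theorem fderiv_PJ {φ : E (Fin d) → E κ} {z : E (Fin d)} (hφ : ContDiffAt ℝ ∞ φ z)
    (hi : Injective (fderiv ℝ φ z)) (a b c : κ) :
    BJ (fderiv ℝ φ z) (fderiv ℝ (fderiv ℝ φ) z) a b c =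
      fderiv ℝ (fun y => PJ (fderiv ℝ φ y) b c) z
        (ContinuousLinearMap.adjoint (Lam (fderiv ℝ φ z)) (ee a)) := by
  have h1 := (hφ.fderiv_right (m := 1) (by norm_cast)).differentiableAt one_ne_zero
  have h2 := fderiv_comp z ((contDiffAt_PJ hi b c).differentiableAt (by simp)) h1
  exact (congrArg (fun T : E (Fin d) →L[ℝ] ℝ =>
    T (ContinuousLinearMap.adjoint (Lam (fderiv ℝ φ z)) (ee a))) h2).symm

section Chart

variable {Y : Type} [TopologicalSpace Y] {G : Imm d κ Y} {e : OpenPartialHomeomorph Y (E (Fin d))}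
  {p : Y}

theorem P_chart (he : IsChart G.x e) (hp : p ∈ e.source) (b c : κ) :
    G.pre.P b c p = PJ (fderiv ℝ (G.x ∘ e.symm) (e p)) b c := by
  rw [G.P_apply, Imm.PL, Imm.td_chart G.x he hp]
  rfl

theorem DP_chart (he : IsChart G.x e) (hp : p ∈ e.source) (a b c : κ) :
    G.pre.D a (G.pre.P b c) p =
      BJ (fderiv ℝ (G.x ∘ e.symm) (e p)) (fderiv ℝ (fderiv ℝ (G.x ∘ e.symm)) (e p)) a b c := by
  have hz := e.map_source hp
  have h : G.pre.P b c ∘ e.symm =ᶠ[𝓝 (e p)] fun y => PJ (fderiv ℝ (G.x ∘ e.symm) y) b c := by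
    filter_upwards [e.open_target.mem_nhds hz] with y hy
    rw [comp_apply, P_chart he (e.map_target hy), e.right_inv hy]
  rw [fderiv_PJ (he.contDiffAt hz) (he.inj _ hz), ← h.fderiv_eq]
  change G.td _ p _ = _
  rw [Imm.td_chart _ he hp]
  rfl

end Chart

variable {ι : Type} [Fintype ι] [DecidableEq ι]

/-- `z ↦ (t + z 0, φ z)` -/
def lift (t : ℝ) (φ : E (Fin (m + 1)) → E ι) (z : E (Fin (m + 1))) : E (Option ι) :=
  up (t + z 0) (φ z)

omit [DecidableEq ι] in
theorem contDiff_lift (t : ℝ) :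
    ContDiff ℝ ∞ fun s : E (Fin (m + 1)) × E ι => up (t + s.1 0) s.2 :=
  contDiff_up.comp (f := fun s : E (Fin (m + 1)) × E ι => (t + s.1 0, s.2)) (by fun_prop)

omit [DecidableEq ι] in
theorem fderiv_lift (t : ℝ) {φ : E (Fin (m + 1)) → E ι} {z : E (Fin (m + 1))}
    (hφ : DifferentiableAt ℝ φ z) (v : E (Fin (m + 1))) :
    fderiv ℝ (lift t φ) z v = up (v 0) (fderiv ℝ φ z v) := by
  have h := ((upL ι).hasFDerivAt.comp z ((((EuclideanSpace.proj (0 : Fin (m + 1)) :
    E (Fin (m + 1)) →L[ℝ] ℝ).hasFDerivAt (x := z)).const_add t).prodMk hφ.hasFDerivAt)).fderiv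
  exact congrArg (fun T : E (Fin (m + 1)) →L[ℝ] E (Option ι) => T v) h

/-- the differential of a cylinder -/
def cylJ (J : E (Fin m) →L[ℝ] E ι) : E (Fin (m + 1)) →L[ℝ] E (Option ι) :=
  upL ι ∘L (EuclideanSpace.proj (0 : Fin (m + 1)) : E (Fin (m + 1)) →L[ℝ] ℝ).prod (J ∘L tailL m)

omit [DecidableEq ι] in
theorem cylJ_apply (J : E (Fin m) →L[ℝ] E ι) (v : E (Fin (m + 1))) :
    cylJ J v = up (v 0) (J (tail0 v)) := rfl

omit [DecidableEq ι] in
theorem cylJ_inj {J : E (Fin m) →L[ℝ] E ι} (hJ : Injective J) : Injective (cylJ J) :=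
  fun v w h => by
    have h1 : v 0 = w 0 := congrArg (fun y : E (Option ι) => y none) h
    have h2 : tail0 v = tail0 w := hJ (congrArg down h)
    rw [← cons0_tail0 v, h1, h2, cons0_tail0]

omit [DecidableEq ι] in
theorem adj_Lam_cylJ {J : E (Fin m) →L[ℝ] E ι} (hJ : Injective J) (w : E (Option ι)) :
    ContinuousLinearMap.adjoint (Lam (cylJ J)) w =
      cons0 (w none) (ContinuousLinearMap.adjoint (Lam J) (down w)) := by
  classical
  refine adj_Lam_eq_of (cylJ_inj hJ) fun v => ?_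
  have h := inner_sub_proj hJ (tail0 v) (down w)
  change ⟪up (v 0) (J (tail0 v)),
    w - up (w none) (J (ContinuousLinearMap.adjoint (Lam J) (down w)))⟫ = 0
  conv_lhs => rw [← up_down w]
  simp only [up_none, down_up]
  rw [up_sub, inner_up, h]
  simp

theorem inner_cons0 (v : E (Fin (m + 1))) (t : ℝ) (y : E (Fin m)) :
    ⟪v, cons0 t y⟫ = v 0 * t + ⟪tail0 v, y⟫ := by
  simp [PiLp.inner_apply, Fin.sum_univ_succ, mul_comm]

omit [DecidableEq ι] in
theorem jac_cylJ (J : E (Fin m) →L[ℝ] E ι) : jac (cylJ J) = jac J := by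
  classical
  let c : (ℝ × E (Fin m)) ≃ₗ[ℝ] E (Fin (m + 1)) :=
    { (consL m).toLinearMap with
      invFun := fun v => (v 0, tail0 v), left_inv := fun _ => rfl, right_inv := cons0_tail0 }
  have h := LinearMap.det_conj (LinearMap.prodMap (LinearMap.id : ℝ →ₗ[ℝ] ℝ)
    (ContinuousLinearMap.adjoint J ∘L J : E (Fin m) →L[ℝ] E (Fin m)).toLinearMap) c
  rw [LinearMap.det_prodMap, LinearMap.det_id, one_mul] at h
  rw [jac, jac, ContinuousLinearMap.det, ContinuousLinearMap.det, ← h]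
  congr 2
  refine LinearMap.ext fun v => ext_inner_left ℝ fun w => ?_
  change ⟪w, ContinuousLinearMap.adjoint (cylJ J) (cylJ J v)⟫ =
    ⟪w, cons0 (v 0) (ContinuousLinearMap.adjoint J (J (tail0 v)))⟫
  rw [ContinuousLinearMap.adjoint_inner_right, inner_cons0, ContinuousLinearMap.adjoint_inner_right,
    cylJ_apply, cylJ_apply, inner_up]

omit [DecidableEq ι] in
/-- the cylinder over the slice `{z 0 = 0}` is immersed -/
theorem inj_cyl (t : ℝ) {φ : E (Fin (m + 1)) → E ι} {z : E (Fin (m + 1))}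
    (hφ : DifferentiableAt ℝ φ (rep z 0)) (hi : Injective (fderiv ℝ φ (rep z 0))) :
    Injective (fderiv ℝ (lift t fun y => φ (rep y 0)) z) := by
  let L : E (Fin (m + 1)) →L[ℝ] E (Fin (m + 1)) :=
    consL m ∘L ContinuousLinearMap.inr ℝ ℝ _ ∘L tailL m
  have hL : ∀ y, L y = rep y 0 := fun y => by
    ext i; refine Fin.cases ?_ (fun i => ?_) i <;> simp [L]
  have h1 : HasFDerivAt (fun y => φ (rep y 0)) (fderiv ℝ φ (rep z 0) ∘L L) z := by
    have h2 := hφ.hasFDerivAt
    rw [← hL] at h2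
    simpa only [comp_def, hL] using h2.comp z L.hasFDerivAt
  intro v w h
  rw [fderiv_lift t h1.differentiableAt, fderiv_lift t h1.differentiableAt, h1.fderiv] at h
  have h3 : v 0 = w 0 := congrArg (fun y : E (Option ι) => y none) h
  have h4 := congrArg tail0 (hi (congrArg down h) : L v = L w)
  rw [← cons0_tail0 v, h3, show tail0 v = tail0 w from h4, cons0_tail0]

section Cyl

variable {Y : Type} [TopologicalSpace Y] [MeasurableSpace Y] {N : Imm m ι Y}
  {e : OpenPartialHomeomorph Y (E (Fin m))} {z : E (Fin (m + 1))} {ψ : E (Fin (m + 1)) → E (Option ι)}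
  {t : ℝ}

omit [DecidableEq ι] [MeasurableSpace Y] in
theorem fderiv_cyl (he : IsChart N.x e) (hz : tail0 z ∈ e.target)
    (hψ : ψ =ᶠ[𝓝 z] lift t fun y => N.x (e.symm (tail0 y))) :
    fderiv ℝ ψ z = cylJ (fderiv ℝ (N.x ∘ e.symm) (tail0 z)) := by
  have h := (he.hasFDerivAt hz).comp z (tailL m).hasFDerivAt
  ext1 v
  rw [hψ.fderiv_eq]
  exact (fderiv_lift t h.differentiableAt v).trans (by rw [h.fderiv]; rfl)

omit [DecidableEq ι] [MeasurableSpace Y] in
theorem jac_cyl (he : IsChart N.x e) (hz : tail0 z ∈ e.target)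
    (hψ : ψ =ᶠ[𝓝 z] lift t fun y => N.x (e.symm (tail0 y))) :
    jac (fderiv ℝ ψ z) = jac (fderiv ℝ (N.x ∘ e.symm) (tail0 z)) := by
  rw [fderiv_cyl he hz hψ, jac_cylJ]

omit [MeasurableSpace Y] in
theorem PJ_cyl (he : IsChart N.x e) (hz : tail0 z ∈ e.target)
    (hψ : ψ =ᶠ[𝓝 z] lift t fun y => N.x (e.symm (tail0 y))) :
    PJ (fderiv ℝ ψ z) = N.cylP (e.symm (tail0 z)) := by
  funext b c
  rw [fderiv_cyl he hz hψ, PJ, adj_Lam_cylJ (he.inj _ hz), cylJ_apply]
  rcases b with _ | b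
  · rcases c with _ | c <;> simp [Imm.cylP, Pre.Pb, down_ee_none]
  · rcases c with _ | c
    · simp [Imm.cylP, Pre.Pb]
    · rw [down_ee_some]
      have h := P_chart he (e.map_target hz) b c
      rw [e.right_inv hz] at h
      exact h.symm

omit [MeasurableSpace Y] in
theorem BJ_cyl (he : IsChart N.x e) (hz : tail0 z ∈ e.target)
    (hψ : ψ =ᶠ[𝓝 z] lift t fun y => N.x (e.symm (tail0 y))) :
    BJ (fderiv ℝ ψ z) (fderiv ℝ (fderiv ℝ ψ) z) = N.cylB (e.symm (tail0 z)) := by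
  funext a b c
  have h1 : ContDiffAt ℝ ∞ ψ z := ((contDiff_lift t).contDiffAt.comp z (contDiffAt_id.prodMk
    ((he.contDiffAt hz).comp z contDiff_tail0.contDiffAt))).congr_of_eventuallyEq hψ
  have h2 : (fun y => PJ (fderiv ℝ ψ y) b c) =ᶠ[𝓝 z] (N.pre.Pb b c ∘ e.symm) ∘ tail0 := by
    filter_upwards [hψ.eventually_nhds, (e.open_target.preimage contDiff_tail0.continuous).mem_nhds hz]
      with y hy hy'
    rw [PJ_cyl he hy' hy]
    rfl
  have h3 := fderiv_cyl he hz hψ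
  rw [fderiv_PJ h1 (h3 ▸ cylJ_inj (he.inj _ hz)), h2.fderiv_eq, fderiv_comp_tail0, h3,
    adj_Lam_cylJ (he.inj _ hz), ContinuousLinearMap.comp_apply, tailL_apply, tail0_cons0]
  rcases a with _ | a
  · rw [down_ee_none, map_zero, map_zero]
    rfl
  · rw [down_ee_some]
    change _ = N.td _ _ _
    rw [Imm.td_chart _ he (e.map_target hz), e.right_inv hz]
    rfl

end Cyl

end Crest.Agent.N222.Lm

end
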