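import Crest.Agent.N222.B.Defs2
import Crest.Agent.N222.F.Lip

/-!
# Row 222, limit block (helper18): extension of test functions from a slice
-/

set_option autoImplicit false
open MeasureTheory Set Filter Topology Function Metric
open scoped ContDiff InnerProductSpace RealInnerProductSpace

noncomputable section

namespace Crest.Agent.N222.Lm

variable {m : ℕ} {ι : Type} [Fintype ι] {X : Type} [TopologicalSpace X] [T2Space X]
  [SecondCountableTopology X]

theorem exists_ext {M : Imm (m + 1) ι X} {S U : Set X} (hU : IsOpen U) (hS : S ⊆ U)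
    (h : ∀ q ∈ S, ∃ e : OpenPartialHomeomorph X (E (Fin (m + 1))), IsChart M.x e ∧ q ∈ e.source ∧
      ∀ p ∈ e.source, p ∈ S ↔ e p 0 = 0) {N : Imm m ι S} (hN : ∀ q, N.x q = M.x q)
    {z : S → ℝ} (hz : N.Tst z) : ∃ z', M.Sm z' ∧ tsupport z' ⊆ U ∧ ∀ q : S, z' q = z q := by
  have hx : N.x = fun q : S => M.x q := funext hN
  have H : ∀ q : S, ∃ (V : Set X) (g : X → ℝ), IsOpen V ∧ q.1 ∈ V ∧ V ⊆ U ∧ M.SmOn V g ∧
      ∀ p : S, p.1 ∈ V → g p = z p := fun q => by
    obtain ⟨e, he, hq, hs⟩ := h q q.2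
    obtain ⟨e', he', h1, -, h3, -⟩ := exists_sliceChart he hs q
    rw [← hx] at he'
    refine ⟨U ∩ (e.source ∩ e ⁻¹' (tail0 ⁻¹' e'.target)), fun p => z (e'.symm (tail0 (e p))),
      hU.inter (e.isOpen_inter_preimage (e'.open_target.preimage contDiff_tail0.continuous)),
      ⟨hS q.2, hq, ?_⟩, inter_subset_left, Imm.smOn_of_chart he (fun _ hp => hp.2.1)
      fun p hp => ?_, fun p hp => ?_⟩
    · change tail0 (e q) ∈ e'.target
      rw [← h3]
      exact e'.map_source (h1 ▸ hq)
    · refine ((((hz.sm.chart he').contDiffAt (e'.open_target.mem_nhds hp.2.2)).comp (e p)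
        contDiff_tail0.contDiffAt)).congr_of_eventuallyEq ?_
      filter_upwards [e.open_target.mem_nhds (e.map_source hp.2.1)] with y hy
      simp only [comp_apply, e.right_inv hy]
    · beta_reduce
      rw [← h3, e'.left_inv (h1 ▸ hp.2.1)]
  choose V g h1 h2 h3 h4 h5 using H
  obtain ⟨n, φ, i, h6, -, h7⟩ := M.exists_partition (hz.cs.isCompact.image continuous_subtype_val)
    V h1 (by rintro _ ⟨q, -, rfl⟩; exact mem_iUnion.2 ⟨q, h2 q⟩)
  refine ⟨fun p => ∑ k, φ k p • g (i k) p,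
    Imm.sm_sum _ fun k _ => (h4 _).smul_sm (h6 k).1.sm (h6 k).2.1, ?_, fun q => ?_⟩
  · refine (closure_minimal (fun p hp => ?_)
      (isClosed_iUnion_of_finite fun k => isClosed_tsupport (φ k))).trans
      (iUnion_subset fun k => (h6 k).2.1.trans (h3 _))
    obtain ⟨k, -, hk⟩ := Finset.exists_ne_zero_of_sum_ne_zero hp
    exact mem_iUnion.2 ⟨k, subset_tsupport _ (left_ne_zero_of_smul hk)⟩
  · have h8 : ∀ k, φ k q • g (i k) q = φ k q * z q := fun k => by
      by_cases hk : φ k q = 0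
      · rw [hk, zero_smul, zero_mul]
      · rw [h5 _ q ((h6 k).2.1 (subset_tsupport _ hk)), smul_eq_mul]
    simp only [h8, ← Finset.sum_mul]
    by_cases hq : z q = 0
    · rw [hq, mul_zero]
    · rw [h7.self_of_nhdsSet _ ⟨q, subset_tsupport _ hq, rfl⟩, one_mul]

end Crest.Agent.N222.Lm

end
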