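import Crest.Agent.N222.F.Defs

/-!
# Row 222, limit block (helper18): uniform convergence along an ultrafilter, `C²` convergence
-/

set_option autoImplicit false
open MeasureTheory Set Filter Topology Function Metric
open scoped ContDiff InnerProductSpace RealInnerProductSpace

noncomputable section

namespace Crest.Agent.N222.Lm

/-- uniform convergence on a relatively compact set = convergence along all convergent sequences -/
theorem tuo_of_seq {α β : Type} [TopologicalSpace α] [PseudoMetricSpace β] (𝒰 : Ultrafilter ℕ)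
    {F : ℕ → α → β} {f : α → β} {s K : Set α} (hK : IsCompact K) (hs : s ⊆ K)
    (hf : ContinuousOn f K)
    (h : ∀ (z : ℕ → α) (z0 : α), (∀ᶠ j in (𝒰 : Filter ℕ), z j ∈ s) → z0 ∈ K → Tendsto z 𝒰 (𝓝 z0) →
      Tendsto (fun j => F j (z j)) 𝒰 (𝓝 (f z0))) : TendstoUniformlyOn F f 𝒰 s := by
  classical
  rw [Metric.tendstoUniformlyOn_iff]
  intro ε hε
  by_contra hne
  have h1 : ∀ᶠ j in (𝒰 : Filter ℕ), ∃ z ∈ s, ε ≤ dist (f z) (F j z) := by
    have := Ultrafilter.eventually_not.2 hne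
    filter_upwards [this] with j hj
    push Not at hj
    exact hj
  obtain ⟨j0, a, ha, -⟩ := h1.exists
  let z : ℕ → α := fun j => if hj : ∃ z ∈ s, ε ≤ dist (f z) (F j z) then hj.choose else a
  have hzs : ∀ j, z j ∈ s := by
    intro j
    by_cases hj : ∃ z ∈ s, ε ≤ dist (f z) (F j z)
    · simp only [z, dif_pos hj]; exact hj.choose_spec.1
    · simp only [z, dif_neg hj]; exact ha
  have hze : ∀ᶠ j in (𝒰 : Filter ℕ), ε ≤ dist (f (z j)) (F j (z j)) := by
    filter_upwards [h1] with j hj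
    simp only [z, dif_pos hj]; exact hj.choose_spec.2
  have hle : (𝒰.map z : Filter α) ≤ 𝓟 K := by
    rw [Filter.le_principal_iff]
    exact Filter.mem_map.2 (Filter.Eventually.of_forall fun j => hs (hzs j))
  obtain ⟨z0, hz0, hlim⟩ := hK.ultrafilter_le_nhds (𝒰.map z) hle
  have ht : Tendsto z 𝒰 (𝓝 z0) := hlim
  have h2 := h z z0 (Filter.Eventually.of_forall hzs) hz0 ht
  have h3 : Tendsto (fun j => f (z j)) 𝒰 (𝓝 (f z0)) :=
    (hf z0 hz0).tendsto.comp
      (tendsto_nhdsWithin_iff.2 ⟨ht, Filter.Eventually.of_forall fun j => hs (hzs j)⟩)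
  have h4 := h3.dist h2
  rw [dist_self] at h4
  have := ge_of_tendsto h4 hze
  linarith

theorem seq_of_tuo {α β : Type} [TopologicalSpace α] [PseudoMetricSpace β] {l : Filter ℕ}
    {F : ℕ → α → β} {f : α → β} {s : Set α} (h : TendstoUniformlyOn F f l s) {z : ℕ → α} {z0 : α}
    (hf : ContinuousAt f z0) (hz : ∀ᶠ j in l, z j ∈ s) (hz0 : Tendsto z l (𝓝 z0)) :
    Tendsto (fun j => F j (z j)) l (𝓝 (f z0)) :=
  h.tendsto_comp hf.continuousWithinAt (tendsto_nhdsWithin_iff.2 ⟨hz0, hz⟩)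

/-- integrals over a set of finite measure -/
theorem tendsto_setIntegral_of_tuo {α : Type} [MeasurableSpace α] {μ : Measure α} {l : Filter ℕ}
    {F : ℕ → α → ℝ} {f : α → ℝ} {s : Set α} (hs : MeasurableSet s) (hμ : μ s ≠ ⊤)
    (h : TendstoUniformlyOn F f l s) (hF : ∀ᶠ j in l, IntegrableOn (F j) s μ)
    (hf : IntegrableOn f s μ) :
    Tendsto (fun j => ∫ z in s, F j z ∂μ) l (𝓝 (∫ z in s, f z ∂μ)) := by
  rw [Metric.tendsto_nhds]
  intro ε hε
  have hM : 0 ≤ μ.real s := measureReal_nonneg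
  have hδ : 0 < ε / (μ.real s + 1) := by positivity
  filter_upwards [Metric.tendstoUniformlyOn_iff.1 h _ hδ, hF] with j hj hFj
  rw [dist_eq_norm, ← integral_sub hFj hf]
  have hb : ‖∫ z in s, (F j z - f z) ∂μ‖ ≤ ε / (μ.real s + 1) * μ.real s := by
    refine norm_setIntegral_le_of_norm_le_const (lt_top_iff_ne_top.2 hμ) fun z hz => ?_
    rw [← dist_eq_norm, dist_comm]
    exact (hj z hz).le
  refine hb.trans_lt ?_
  rw [div_mul_eq_mul_div, div_lt_iff₀ (by positivity)]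
  nlinarith

variable {V W Z : Type} [NormedAddCommGroup V] [NormedSpace ℝ V] [NormedAddCommGroup W]
  [NormedSpace ℝ W] [NormedAddCommGroup Z] [NormedSpace ℝ Z]

/-- uniform convergence of the 2-jets -/
structure C2 (F : ℕ → V → W) (f : V → W) (l : Filter ℕ) (s : Set V) : Prop where
  c0 : TendstoUniformlyOn F f l s
  c1 : TendstoUniformlyOn (fun j => fderiv ℝ (F j)) (fderiv ℝ f) l s
  c2 : TendstoUniformlyOn (fun j => fderiv ℝ (fderiv ℝ (F j))) (fderiv ℝ (fderiv ℝ f)) l s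

theorem tuo_iff_of_dist {α β γ : Type} [PseudoMetricSpace β] [PseudoMetricSpace γ] {l : Filter ℕ}
    {F : ℕ → α → β} {f : α → β} {G : ℕ → α → γ} {g : α → γ} {s : Set α}
    (h : ∀ j z, dist (f z) (F j z) = dist (g z) (G j z)) :
    TendstoUniformlyOn F f l s ↔ TendstoUniformlyOn G g l s := by
  simp only [Metric.tendstoUniformlyOn_iff, h]

theorem dist_iter_zero (f g : V → W) (z : V) :
    dist (iteratedFDeriv ℝ 0 f z) (iteratedFDeriv ℝ 0 g z) = dist (f z) (g z) := by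
  simp only [iteratedFDeriv_zero_eq_comp, Function.comp_apply]
  exact LinearIsometryEquiv.dist_map _ _ _

theorem dist_iter_succ (n : ℕ) (f g : V → W) (z : V) :
    dist (iteratedFDeriv ℝ (n + 1) f z) (iteratedFDeriv ℝ (n + 1) g z) =
      dist (iteratedFDeriv ℝ n (fderiv ℝ f) z) (iteratedFDeriv ℝ n (fderiv ℝ g) z) := by
  simp only [iteratedFDeriv_succ_eq_comp_right, Function.comp_apply]
  exact LinearIsometryEquiv.dist_map _ _ _

theorem c2_iff {F : ℕ → V → W} {f : V → W} {l : Filter ℕ} {s : Set V} : C2 F f l s ↔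
    ∀ k ≤ 2, TendstoUniformlyOn (fun j => iteratedFDeriv ℝ k (F j)) (iteratedFDeriv ℝ k f) l s := by
  have e0 : TendstoUniformlyOn (fun j => iteratedFDeriv ℝ 0 (F j)) (iteratedFDeriv ℝ 0 f) l s ↔
      TendstoUniformlyOn F f l s := tuo_iff_of_dist fun j z => dist_iter_zero _ _ _
  have e1 : TendstoUniformlyOn (fun j => iteratedFDeriv ℝ 1 (F j)) (iteratedFDeriv ℝ 1 f) l s ↔
      TendstoUniformlyOn (fun j => fderiv ℝ (F j)) (fderiv ℝ f) l s :=
    tuo_iff_of_dist fun j z => (dist_iter_succ 0 _ _ _).trans (dist_iter_zero _ _ _)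
  have e2 : TendstoUniformlyOn (fun j => iteratedFDeriv ℝ 2 (F j)) (iteratedFDeriv ℝ 2 f) l s ↔
      TendstoUniformlyOn (fun j => fderiv ℝ (fderiv ℝ (F j))) (fderiv ℝ (fderiv ℝ f)) l s :=
    tuo_iff_of_dist fun j z =>
      (dist_iter_succ 1 _ _ _).trans ((dist_iter_succ 0 _ _ _).trans (dist_iter_zero _ _ _))
  constructor
  · intro h k hk
    interval_cases k
    · exact e0.2 h.c0
    · exact e1.2 h.c1
    · exact e2.2 h.c2
  · intro h
    exact ⟨e0.1 (h 0 (by norm_num)), e1.1 (h 1 (by norm_num)), e2.1 (h 2 le_rfl)⟩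

theorem C2.mono {F : ℕ → V → W} {f : V → W} {l : Filter ℕ} {s s' : Set V} (h : C2 F f l s)
    (hs : s' ⊆ s) : C2 F f l s' := ⟨h.c0.mono hs, h.c1.mono hs, h.c2.mono hs⟩

theorem eqOn_fderiv_open {f f' : V → W} {s : Set V} (hs : IsOpen s) (hf : EqOn f f' s) :
    EqOn (fderiv ℝ f) (fderiv ℝ f') s := fun _ hz =>
  (hf.eventuallyEq_of_mem (hs.mem_nhds hz)).fderiv_eq

theorem C2.congr {F F' : ℕ → V → W} {f f' : V → W} {l : Filter ℕ} {s : Set V} (h : C2 F f l s)
    (hs : IsOpen s) (hF : ∀ᶠ j in l, EqOn (F j) (F' j) s) (hf : EqOn f f' s) : C2 F' f' l s :=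
  ⟨(h.c0.congr hF).congr_right hf,
    (h.c1.congr (hF.mono fun _ hj => eqOn_fderiv_open hs hj)).congr_right
      (eqOn_fderiv_open hs hf),
    (h.c2.congr (hF.mono fun _ hj => eqOn_fderiv_open hs (eqOn_fderiv_open hs hj))).congr_right
      (eqOn_fderiv_open hs (eqOn_fderiv_open hs hf))⟩

/-- first derivative of `z ↦ φ (z, G z)` as a function of the jets -/
def jet1 (A : V × W →L[ℝ] Z) (P : V →L[ℝ] W) : V →L[ℝ] Z :=
  A ∘L (ContinuousLinearMap.inl ℝ V W + ContinuousLinearMap.inr ℝ V W ∘L P)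

/-- second derivative of `z ↦ φ (z, G z)` as a function of the jets -/
def jet2 (A : V × W →L[ℝ] Z) (B : V × W →L[ℝ] V × W →L[ℝ] Z) (P : V →L[ℝ] W)
    (Q : V →L[ℝ] V →L[ℝ] W) : V →L[ℝ] V →L[ℝ] Z :=
  ((ContinuousLinearMap.compL ℝ V (V × W) Z).flip
      (ContinuousLinearMap.inl ℝ V W + ContinuousLinearMap.inr ℝ V W ∘L P)) ∘L
    (B ∘L (ContinuousLinearMap.inl ℝ V W + ContinuousLinearMap.inr ℝ V W ∘L P)) +
  (ContinuousLinearMap.compL ℝ V W Z (A ∘L ContinuousLinearMap.inr ℝ V W)) ∘L Q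

theorem continuous_jet1 :
    Continuous fun q : (V × W →L[ℝ] Z) × (V →L[ℝ] W) => jet1 q.1 q.2 := by
  unfold jet1
  exact continuous_fst.clm_comp (continuous_const.add (continuous_const.clm_comp continuous_snd))

theorem continuous_jet2 :
    Continuous fun q : ((V × W →L[ℝ] Z) × (V × W →L[ℝ] V × W →L[ℝ] Z)) ×
      ((V →L[ℝ] W) × (V →L[ℝ] V →L[ℝ] W)) => jet2 q.1.1 q.1.2 q.2.1 q.2.2 := by
  unfold jet2
  have hT : Continuous fun q : ((V × W →L[ℝ] Z) × (V × W →L[ℝ] V × W →L[ℝ] Z)) ×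
      ((V →L[ℝ] W) × (V →L[ℝ] V →L[ℝ] W)) =>
      ContinuousLinearMap.inl ℝ V W + ContinuousLinearMap.inr ℝ V W ∘L q.2.1 :=
    continuous_const.add (continuous_const.clm_comp (continuous_fst.comp continuous_snd))
  refine Continuous.add ?_ ?_
  · exact ((ContinuousLinearMap.continuous _).comp hT).clm_comp
      ((continuous_snd.comp continuous_fst).clm_comp hT)
  · exact ((ContinuousLinearMap.continuous _).comp
      ((continuous_fst.comp continuous_fst).clm_comp continuous_const)).clm_comp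
      (continuous_snd.comp continuous_snd)

theorem hasFDerivAt_pair {G : V → W} {P : V →L[ℝ] W} {z : V} (hG : HasFDerivAt G P z) :
    HasFDerivAt (fun y => (y, G y))
      (ContinuousLinearMap.inl ℝ V W + ContinuousLinearMap.inr ℝ V W ∘L P) z := by
  have e : ContinuousLinearMap.inl ℝ V W + ContinuousLinearMap.inr ℝ V W ∘L P =
      (ContinuousLinearMap.id ℝ V).prod P := by
    refine ContinuousLinearMap.ext fun v => ?_
    simp
  rw [e]
  exact (hasFDerivAt_id (𝕜 := ℝ) z).prodMk hG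

theorem fderiv_comp_jet1 {G : V → W} {φ : V × W → Z} {z : V} (hG : DifferentiableAt ℝ G z)
    (hφ : DifferentiableAt ℝ φ (z, G z)) :
    fderiv ℝ (fun y => φ (y, G y)) z = jet1 (fderiv ℝ φ (z, G z)) (fderiv ℝ G z) :=
  (HasFDerivAt.comp (g := φ) (f := fun y => (y, G y)) z hφ.hasFDerivAt
    (hasFDerivAt_pair hG.hasFDerivAt)).fderiv

theorem fderiv_comp_jet2 {G : V → W} {φ : V × W → Z} {z : V} (hG : ContDiffAt ℝ 2 G z)
    (hφ : ContDiffAt ℝ 2 φ (z, G z)) :
    fderiv ℝ (fderiv ℝ fun y => φ (y, G y)) z =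
      jet2 (fderiv ℝ φ (z, G z)) (fderiv ℝ (fderiv ℝ φ) (z, G z)) (fderiv ℝ G z)
        (fderiv ℝ (fderiv ℝ G) z) := by
  have hGd : DifferentiableAt ℝ G z := hG.differentiableAt (by norm_num)
  have hp := hasFDerivAt_pair hGd.hasFDerivAt
  have e1 : fderiv ℝ (fun y => φ (y, G y)) =ᶠ[𝓝 z]
      fun y => jet1 (fderiv ℝ φ (y, G y)) (fderiv ℝ G y) := by
    have a1 : ∀ᶠ y in 𝓝 z, ContDiffAt ℝ 2 G y := hG.eventually (by simp)
    have a2 : ∀ᶠ y in 𝓝 z, ContDiffAt ℝ 2 φ (y, G y) :=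
      hp.continuousAt.eventually (hφ.eventually (by simp))
    filter_upwards [a1, a2] with y h1 h2
    exact fderiv_comp_jet1 (h1.differentiableAt (by norm_num)) (h2.differentiableAt (by norm_num))
  rw [e1.fderiv_eq]
  have b1 : DifferentiableAt ℝ (fderiv ℝ φ) (z, G z) :=
    (hφ.fderiv_right (m := 1) (by norm_num)).differentiableAt (by norm_num)
  have b2 : DifferentiableAt ℝ (fderiv ℝ G) z :=
    (hG.fderiv_right (m := 1) (by norm_num)).differentiableAt (by norm_num)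
  have c1 := HasFDerivAt.comp (g := fderiv ℝ φ) (f := fun y => (y, G y)) z b1.hasFDerivAt hp
  have c2 : HasFDerivAt (fun y => ContinuousLinearMap.inl ℝ V W +
      ContinuousLinearMap.inr ℝ V W ∘L fderiv ℝ G y)
      ((ContinuousLinearMap.compL ℝ V W (V × W) (ContinuousLinearMap.inr ℝ V W)) ∘L
        fderiv ℝ (fderiv ℝ G) z) z :=
    (((ContinuousLinearMap.compL ℝ V W (V × W)
      (ContinuousLinearMap.inr ℝ V W)).hasFDerivAt).comp z b2.hasFDerivAt).const_add _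
  have c3 := c1.clm_comp c2
  refine (c3.fderiv).trans ?_
  ext v w
  simp [jet2, add_comm]

/-- `C²` convergence is preserved by maps `z ↦ φ (z, G z)` with `φ` smooth -/
theorem C2.comp {𝒰 : Ultrafilter ℕ} {G : ℕ → V → W} {g : V → W} {s K O : Set V} (h : C2 G g 𝒰 s)
    (hs : IsOpen s) (hK : IsCompact K) (hO : IsOpen O) (hsK : s ⊆ K) (hKO : K ⊆ O)
    (hg : ContDiffOn ℝ ∞ g O) (hG : ∀ᶠ j in (𝒰 : Filter ℕ), ContDiffOn ℝ ∞ (G j) s)
    {φ : V × W → Z} {U : Set (V × W)} (hU : IsOpen U) (hφ : ContDiffOn ℝ ∞ φ U)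
    (hgU : ∀ z ∈ K, (z, g z) ∈ U) :
    C2 (fun j z => φ (z, G j z)) (fun z => φ (z, g z)) 𝒰 s := by
  have h2 : (2 : WithTop ℕ∞) ≤ ∞ := WithTop.coe_le_coe.2 (le_top : (2 : ℕ∞) ≤ ⊤)
  have hgA : ∀ z ∈ K, ContDiffAt ℝ 2 g z := fun z hz =>
    (hg.contDiffAt (hO.mem_nhds (hKO hz))).of_le h2
  have hφA : ∀ q ∈ U, ContDiffAt ℝ 2 φ q := fun q hq => (hφ.contDiffAt (hU.mem_nhds hq)).of_le h2
  have hcA : ∀ z ∈ K, ContDiffAt ℝ 2 (fun y => φ (y, g y)) z := fun z hz =>
    ContDiffAt.comp (g := φ) (f := fun y => (y, g y)) z (hφA _ (hgU z hz))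
      (contDiffAt_id.prodMk (hgA z hz))
  -- convergence of the jets along a convergent sequence
  have key : ∀ (z : ℕ → V) (z0 : V), (∀ᶠ j in (𝒰 : Filter ℕ), z j ∈ s) → z0 ∈ K →
      Tendsto z 𝒰 (𝓝 z0) →
      Tendsto (fun j => (z j, G j (z j))) 𝒰 (𝓝 (z0, g z0)) ∧
      Tendsto (fun j => fderiv ℝ (G j) (z j)) 𝒰 (𝓝 (fderiv ℝ g z0)) ∧
      Tendsto (fun j => fderiv ℝ (fderiv ℝ (G j)) (z j)) 𝒰 (𝓝 (fderiv ℝ (fderiv ℝ g) z0)) ∧
      ∀ᶠ j in (𝒰 : Filter ℕ), ContDiffAt ℝ 2 (G j) (z j) ∧ ContDiffAt ℝ 2 φ (z j, G j (z j)) := by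
    intro z z0 hz hz0 ht
    have t0 := ht.prodMk_nhds (seq_of_tuo h.c0 (hgA z0 hz0).continuousAt hz ht)
    have d1 : ContDiffAt ℝ 1 (fderiv ℝ g) z0 := (hgA z0 hz0).fderiv_right (by norm_num)
    have d2 : ContDiffAt ℝ 0 (fderiv ℝ (fderiv ℝ g)) z0 := d1.fderiv_right (by norm_num)
    refine ⟨t0, seq_of_tuo h.c1 d1.continuousAt hz ht, seq_of_tuo h.c2 d2.continuousAt hz ht, ?_⟩
    filter_upwards [hz, hG, t0.eventually (hU.mem_nhds (hgU z0 hz0))] with j a1 a2 a3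
    exact ⟨(a2.contDiffAt (hs.mem_nhds a1)).of_le h2, hφA _ a3⟩
  refine ⟨?_, ?_, ?_⟩
  · refine tuo_of_seq 𝒰 hK hsK (fun z hz => (hcA z hz).continuousAt.continuousWithinAt) ?_
    intro z z0 hz hz0 ht
    exact (hφA _ (hgU z0 hz0)).continuousAt.tendsto.comp (key z z0 hz hz0 ht).1
  · refine tuo_of_seq 𝒰 hK hsK (fun z hz =>
      ((hcA z hz).fderiv_right (m := 1) (by norm_num)).continuousAt.continuousWithinAt) ?_
    intro z z0 hz hz0 ht
    obtain ⟨t0, t1, -, t3⟩ := key z z0 hz hz0 ht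
    have p1 : ContDiffAt ℝ 1 (fderiv ℝ φ) (z0, g z0) :=
      (hφA _ (hgU z0 hz0)).fderiv_right (by norm_num)
    have := (continuous_jet1.tendsto _).comp ((p1.continuousAt.tendsto.comp t0).prodMk_nhds t1)
    rw [fderiv_comp_jet1 ((hgA z0 hz0).differentiableAt (by norm_num))
      ((hφA _ (hgU z0 hz0)).differentiableAt (by norm_num))]
    refine this.congr' ?_
    filter_upwards [t3] with j hj
    exact (fderiv_comp_jet1 (hj.1.differentiableAt (by norm_num))
      (hj.2.differentiableAt (by norm_num))).symm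
  · refine tuo_of_seq 𝒰 hK hsK (fun z hz =>
      (((hcA z hz).fderiv_right (m := 1) (by norm_num)).fderiv_right (m := 0)
        (by norm_num)).continuousAt.continuousWithinAt) ?_
    intro z z0 hz hz0 ht
    obtain ⟨t0, t1, t2, t3⟩ := key z z0 hz hz0 ht
    have p1 : ContDiffAt ℝ 1 (fderiv ℝ φ) (z0, g z0) :=
      (hφA _ (hgU z0 hz0)).fderiv_right (by norm_num)
    have p2 : ContDiffAt ℝ 0 (fderiv ℝ (fderiv ℝ φ)) (z0, g z0) := p1.fderiv_right (by norm_num)
    have := (continuous_jet2.tendsto _).comp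
      (((p1.continuousAt.tendsto.comp t0).prodMk_nhds
        (p2.continuousAt.tendsto.comp t0)).prodMk_nhds (t1.prodMk_nhds t2))
    rw [fderiv_comp_jet2 (hgA z0 hz0) (hφA _ (hgU z0 hz0))]
    refine this.congr' ?_
    filter_upwards [t3] with j hj
    exact (fderiv_comp_jet2 hj.1 hj.2).symm

end Crest.Agent.N222.Lm

end
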