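import Crest.Agent.N222.F.Lip
import Crest.Agent.N222.L.Ul
import Crest.Agent.N222.L.Cv1

/-!
# Row 222, limit block (helper18): convergence of curvature integrals in one box
-/

set_option autoImplicit false
set_option linter.unusedSectionVars false
open MeasureTheory Set Filter Topology Function Metric
open scoped ContDiff InnerProductSpace RealInnerProductSpace

noncomputable section

namespace Crest.Agent.N222.Lm

/-- the domain of the integrands -/
abbrev Dom (X ι : Type) : Type :=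
  X × ℝ × (Option ι → Option ι → ℝ) × (Option ι → Option ι → Option ι → ℝ)

variable {m : ℕ} {ι : Type} [Fintype ι] [DecidableEq ι] {X : Type} [TopologicalSpace X]
  [T2Space X] [SecondCountableTopology X] [MeasurableSpace X] [BorelSpace X]

/-- the integrand on a graph -/
def gInt (M : Imm (m + 1) ι X) (Ψ : Dom X ι → ℝ) (u : X → ℝ) (q : X) : ℝ :=
  Ψ (q, u q, fun b c => (M.gS u).P b c q, fun a b c => (M.gS u).D a ((M.gS u).P b c) q)

/-- the parametrisation of the cylinder -/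
def cyl (M : Imm (m + 1) ι X) (e : OpenPartialHomeomorph X (E (Fin (m + 1)))) (t : ℝ) :
    E (Fin (m + 1)) → E (Option ι) := lift t fun y => M.x (e.symm (rep y 0))

/-- the integrand on the cylinder, in a chart -/
def cInt (M : Imm (m + 1) ι X) (Ψ : Dom X ι → ℝ) (e : OpenPartialHomeomorph X (E (Fin (m + 1))))
    (t : ℝ) (z : E (Fin (m + 1))) : ℝ :=
  jac (fderiv ℝ (cyl M e t) z) * Ψ (e.symm (rep z 0), t + z 0, PJ (fderiv ℝ (cyl M e t) z),
    BJ (fderiv ℝ (cyl M e t) z) (fderiv ℝ (fderiv ℝ (cyl M e t)) z))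

variable {M : Imm (m + 1) ι X} {Ψ : Dom X ι → ℝ} {e : OpenPartialHomeomorph X (E (Fin (m + 1)))}
  {t ρ : ℝ}

namespace C3

/-- the integrand as a function of the 2-jet -/
def jI (Ψ : Dom X ι → ℝ) (q : X) (s : ℝ) (J : E (Fin (m + 1)) →L[ℝ] E (Option ι))
    (H : E (Fin (m + 1)) →L[ℝ] E (Fin (m + 1)) →L[ℝ] E (Option ι)) : ℝ :=
  jac J * Ψ (q, s, PJ J, BJ J H)

omit [T2Space X] [SecondCountableTopology X] [MeasurableSpace X] [BorelSpace X] in
theorem tendsto_jI (hΨ : Continuous Ψ) {α : Type} {l : Filter α} {q : α → X} {s : α → ℝ}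
    {J : α → E (Fin (m + 1)) →L[ℝ] E (Option ι)}
    {H : α → E (Fin (m + 1)) →L[ℝ] E (Fin (m + 1)) →L[ℝ] E (Option ι)} {q0 : X} {s0 : ℝ}
    {J0 : E (Fin (m + 1)) →L[ℝ] E (Option ι)}
    {H0 : E (Fin (m + 1)) →L[ℝ] E (Fin (m + 1)) →L[ℝ] E (Option ι)} (hJ : Injective J0)
    (h1 : Tendsto q l (𝓝 q0)) (h2 : Tendsto s l (𝓝 s0)) (h3 : Tendsto J l (𝓝 J0))
    (h4 : Tendsto H l (𝓝 H0)) :
    Tendsto (fun j => jI Ψ (q j) (s j) (J j) (H j)) l (𝓝 (jI Ψ q0 s0 J0 H0)) := by
  have a1 : Tendsto (fun j => jac (J j)) l (𝓝 (jac J0)) :=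
    (contDiffAt_jac hJ).continuousAt.tendsto.comp h3
  have a2 : Tendsto (fun j => PJ (J j)) l (𝓝 (PJ J0)) := (continuousAt_PJ hJ).tendsto.comp h3
  have a3 : Tendsto (fun j => BJ (J j) (H j)) l (𝓝 (BJ J0 H0)) :=
    (continuousAt_BJ hJ H0).tendsto.comp (h3.prodMk_nhds h4)
  exact a1.mul ((hΨ.tendsto _).comp (h1.prodMk_nhds (h2.prodMk_nhds (a2.prodMk_nhds a3))))

theorem contDiff_rep0 : ContDiff ℝ ∞ fun z : E (Fin (m + 1)) => rep z 0 :=
  contDiff_rep.comp (contDiff_id.prodMk contDiff_const)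

omit [T2Space X] [SecondCountableTopology X] [MeasurableSpace X] [BorelSpace X] in
theorem isOpen_O (e : OpenPartialHomeomorph X (E (Fin (m + 1)))) :
    IsOpen {z : E (Fin (m + 1)) | rep z 0 ∈ e.target} :=
  e.open_target.preimage contDiff_rep0.continuous

omit [T2Space X] [SecondCountableTopology X] [MeasurableSpace X] [BorelSpace X] in
theorem ball_sub (h : closedBall 0 ρ ⊆ e.target) :
    closedBall 0 ρ ⊆ {z : E (Fin (m + 1)) | rep z 0 ∈ e.target} := fun z hz =>
  h (mem_closedBall_zero_iff.2 ((norm_rep_zero_le z).trans (mem_closedBall_zero_iff.1 hz)))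

omit [DecidableEq ι] [T2Space X] [SecondCountableTopology X] [MeasurableSpace X] [BorelSpace X] in
theorem sm_base (he : IsChart M.x e) :
    ContDiffOn ℝ ∞ (fun y => M.x (e.symm (rep y 0))) {z | rep z 0 ∈ e.target} :=
  he.sm.comp contDiff_rep0.contDiffOn fun _ hz => hz

omit [DecidableEq ι] [T2Space X] [SecondCountableTopology X] [MeasurableSpace X] [BorelSpace X] in
theorem sm_cyl (he : IsChart M.x e) (t : ℝ) {z : E (Fin (m + 1))} (hz : rep z 0 ∈ e.target) :
    ContDiffAt ℝ ∞ (cyl M e t) z :=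
  ((contDiff_lift t).comp_contDiffOn (contDiffOn_id.prodMk (sm_base he))).contDiffAt
    ((isOpen_O e).mem_nhds hz)

omit [DecidableEq ι] [T2Space X] [SecondCountableTopology X] [MeasurableSpace X] [BorelSpace X] in
theorem inj_cyl' (he : IsChart M.x e) (t : ℝ) {z : E (Fin (m + 1))} (hz : rep z 0 ∈ e.target) :
    Injective (fderiv ℝ (cyl M e t) z) :=
  inj_cyl t (φ := M.x ∘ e.symm)
    ((he.sm.contDiffAt (e.open_target.mem_nhds hz)).differentiableAt (by simp)) (he.inj _ hz)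

omit [DecidableEq ι] [T2Space X] [SecondCountableTopology X] [MeasurableSpace X] [BorelSpace X] in
theorem cont_d1 (he : IsChart M.x e) (t : ℝ) {z : E (Fin (m + 1))} (hz : rep z 0 ∈ e.target) :
    ContDiffAt ℝ ∞ (fderiv ℝ (cyl M e t)) z := (sm_cyl he t hz).fderiv_right (by simp)

omit [DecidableEq ι] [T2Space X] [SecondCountableTopology X] [MeasurableSpace X] [BorelSpace X] in
theorem cont_d2 (he : IsChart M.x e) (t : ℝ) {z : E (Fin (m + 1))} (hz : rep z 0 ∈ e.target) :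
    ContDiffAt ℝ ∞ (fderiv ℝ (fderiv ℝ (cyl M e t))) z := (cont_d1 he t hz).fderiv_right (by simp)

theorem continuous_gInt (hΨ : Continuous Ψ) {u : X → ℝ} (hu : M.Sm u) :
    Continuous (gInt M Ψ u) := by
  unfold gInt
  rw [← Imm.graph_pre hu]
  exact hΨ.comp (continuous_id.prodMk (hu.continuous.prodMk
    ((continuous_pi fun b => continuous_pi fun c => (Imm.sm_P _ b c).continuous).prodMk
      (continuous_pi fun a => continuous_pi fun b => continuous_pi fun c =>
        ((Imm.sm_P _ b c).D a).continuous))))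

theorem gInt_chart {u : X → ℝ} (hu : M.Sm u) (he : IsChart M.x e) {z : E (Fin (m + 1))}
    (hz : z ∈ e.target) :
    jac (fderiv ℝ (M.gx u ∘ e.symm) z) • gInt M Ψ u (e.symm z) =
      jI Ψ (e.symm z) (u (e.symm z)) (fderiv ℝ (M.gx u ∘ e.symm) z)
        (fderiv ℝ (fderiv ℝ (M.gx u ∘ e.symm)) z) := by
  have he' : IsChart (M.graph u hu).x e := Imm.isChart_graph hu he
  have h1 := fun b c => P_chart he' (e.map_target hz) b c
  have h2 := fun a b c => DP_chart he' (e.map_target hz) a b c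
  rw [e.right_inv hz, Imm.graph_pre hu, Imm.graph_x hu] at h1 h2
  simp only [gInt, jI, h1, h2, smul_eq_mul]

end C3

open C3

omit [T2Space X] [SecondCountableTopology X] [MeasurableSpace X] [BorelSpace X] in
theorem continuousOn_cInt (he : IsChart M.x e) (hΨ : Continuous Ψ) (t : ℝ) :
    ContinuousOn (cInt M Ψ e t) {z | rep z 0 ∈ e.target} := by
  intro z hz
  refine ContinuousAt.continuousWithinAt ?_
  have h1 : Tendsto (fun z => e.symm (rep z 0)) (𝓝 z) (𝓝 (e.symm (rep z 0))) :=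
    (e.continuousAt_symm hz).tendsto.comp (contDiff_rep0.continuous.tendsto z)
  have h2 : Tendsto (fun z : E (Fin (m + 1)) => t + z 0) (𝓝 z) (𝓝 (t + z 0)) :=
    (by fun_prop : Continuous fun z : E (Fin (m + 1)) => t + z 0).tendsto z
  exact tendsto_jI hΨ (inj_cyl' he t hz) h1 h2 (cont_d1 he t hz).continuousAt.tendsto
    (cont_d2 he t hz).continuousAt.tendsto

theorem tendsto_box [CompactSpace X] (hM : Injective M.x) {𝒰 : Ultrafilter ℕ} {u : ℕ → X → ℝ}
    (hu : ∀ j, M.Sm (u j)) {p : X} {c : ℕ → OpenPartialHomeomorph X (E (Fin (m + 1)))}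
    (B : Box M 𝒰 u p t e ρ c) (hΨ : Continuous Ψ)
    (h0 : ∀ᶠ j in (𝒰 : Filter ℕ), ∀ q, gInt M Ψ (u j) q ≠ 0 → q ∈ (c j).source) :
    Tendsto (fun j => ∫ q, gInt M Ψ (u j) q ∂M.gmu (u j)) 𝒰
      (𝓝 (∫ z in ball 0 ρ, cInt M Ψ e t z)) := by
  have hKO := ball_sub B.sub
  have hcI := (continuousOn_cInt B.ch hΨ t).mono hKO
  have hC : C2 (fun j => M.x ∘ (c j).symm) (fun z => M.x (e.symm (rep z 0))) 𝒰 (ball 0 ρ) := by
    have : (fun z : E (Fin (m + 1)) => M.x (e.symm (rep z 0))) =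
        fun z => M.x (e.symm (z - z 0 • ee 0)) := by
      funext z
      rw [rep, zero_sub, neg_smul, ← sub_eq_add_neg]
    rw [this]
    exact c2_iff.2 B.conv
  have hC' : C2 (fun j => M.gx (u j) ∘ (c j).symm) (cyl M e t) 𝒰 (ball 0 ρ) := by
    refine (hC.comp isOpen_ball (isCompact_closedBall 0 ρ) (isOpen_O e) ball_subset_closedBall hKO
      (sm_base B.ch) (B.chj.mono fun j hj => hj.2.1 ▸ hj.1.sm) isOpen_univ
      (contDiff_lift t).contDiffOn fun _ _ => mem_univ _).congr isOpen_ball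
      (B.chj.mono fun j hj z hz => ?_) fun _ _ => rfl
    simp only [comp_apply, Imm.gx, hj.2.2 z hz]
  set F : ℕ → E (Fin (m + 1)) → ℝ := fun j z => jI Ψ ((c j).symm z) (t + z 0)
    (fderiv ℝ (M.gx (u j) ∘ (c j).symm) z) (fderiv ℝ (fderiv ℝ (M.gx (u j) ∘ (c j).symm)) z)
  have hF : ∀ᶠ j in (𝒰 : Filter ℕ), IntegrableOn (F j) (ball 0 ρ) ∧
      ∫ z in ball 0 ρ, F j z = ∫ q, gInt M Ψ (u j) q ∂M.gmu (u j) := by
    filter_upwards [B.chj, h0] with j hj hs
    have he' : IsChart (M.graph (u j) (hu j)).x (c j) := Imm.isChart_graph (hu j) hj.1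
    have hE : EqOn (fun z => jac (fderiv ℝ ((M.graph (u j) (hu j)).x ∘ (c j).symm) z) •
        gInt M Ψ (u j) ((c j).symm z)) (F j) (ball 0 ρ) := fun z hz => by
      have := gInt_chart (Ψ := Ψ) (hu j) hj.1 (hj.2.1 ▸ hz)
      rw [hj.2.2 z hz] at this
      exact this
    have hi := (Imm.integrableOn_chart he' (gInt M Ψ (u j))).1
      ((continuous_gInt hΨ (hu j)).integrable_of_hasCompactSupport
        (HasCompactSupport.of_compactSpace _)).integrableOn
    rw [hj.2.1] at hi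
    refine ⟨hi.congr_fun hE measurableSet_ball, ?_⟩
    rw [← Imm.graph_mu (hu j), Imm.integral_chart he' fun q hq => hs q hq, hj.2.1,
      setIntegral_congr_fun measurableSet_ball hE]
  have hT : TendstoUniformlyOn F (cInt M Ψ e t) 𝒰 (ball 0 ρ) := by
    refine tuo_of_seq 𝒰 (isCompact_closedBall 0 ρ) ball_subset_closedBall hcI
      fun z z0 hz hz0 hl => ?_
    have hO := hKO hz0
    have h1 : Tendsto (fun j => (c j).symm (z j)) 𝒰 (𝓝 (e.symm (rep z0 0))) :=
      (Imm.tendsto_iff_x hM).2 (seq_of_tuo hC.c0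
        ((sm_base B.ch).contDiffAt ((isOpen_O e).mem_nhds hO)).continuousAt hz hl)
    have h2 : Tendsto (fun j => t + z j 0) 𝒰 (𝓝 (t + z0 0)) :=
      ((by fun_prop : Continuous fun z : E (Fin (m + 1)) => t + z 0).tendsto z0).comp hl
    have h3 := seq_of_tuo hC'.c1 (cont_d1 B.ch t hO).continuousAt hz hl
    have h4 := seq_of_tuo hC'.c2 (cont_d2 B.ch t hO).continuousAt hz hl
    exact tendsto_jI hΨ (inj_cyl' B.ch t hO) h1 h2 h3 h4
  exact (tendsto_setIntegral_of_tuo measurableSet_ball measure_ball_lt_top.ne hT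
    (hF.mono fun _ h => h.1) ((hcI.integrableOn_compact (isCompact_closedBall 0 ρ)).mono_set
      ball_subset_closedBall)).congr' (hF.mono fun _ h => h.2)

end Crest.Agent.N222.Lm

end
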