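import Crest.Agent.N222.B.Defs2
import Crest.Agent.N222.F.Lip

/-!
# Row 222, limit block (helper18): the stability integrand as a function of the jets
-/

set_option autoImplicit false
set_option linter.unusedSectionVars false
open MeasureTheory Set Filter Topology Function Metric
open scoped ContDiff InnerProductSpace RealInnerProductSpace

noncomputable section

namespace Crest.Agent.N222.Lm

/-- long cut-off functions -/
theorem exists_eta {ε : ℝ} (hε : 0 < ε) : ∃ (η : ℝ → ℝ) (T : ℝ), ContDiff ℝ ∞ η ∧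
    (∀ t, T < |t| → η t = 0 ∧ deriv η t = 0) ∧ 0 < ∫ t, η t ^ 2 ∧
    ∫ t, deriv η t ^ 2 ≤ ε * ∫ t, η t ^ 2 := by
  let b : ContDiffBump (0 : ℝ) := ⟨1, 2, one_pos, one_lt_two⟩
  have hb : ContDiff ℝ ∞ b := b.contDiff
  have hα : 0 < ∫ t, b t ^ 2 := by
    refine Continuous.integral_pos_of_hasCompactSupport_nonneg_nonzero (x := 0)
      (hb.continuous.pow 2) (b.hasCompactSupport.comp_left (g := fun s : ℝ => s ^ 2) (by simp))
      (fun _ => sq_nonneg _) ?_
    rw [b.one_of_mem_closedBall (mem_closedBall_self b.rIn_pos.le)]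
    simp
  have hβ : 0 ≤ ∫ t, deriv b t ^ 2 := integral_nonneg fun _ => sq_nonneg _
  set α := ∫ t, b t ^ 2
  set β := ∫ t, deriv b t ^ 2
  obtain ⟨c, c0, c1, c2⟩ : ∃ c : ℝ, 0 < c ∧ c ≤ 1 ∧ c * (β + 1) ≤ ε * α :=
    ⟨min 1 (ε * α / (β + 1)), by positivity, min_le_left _ _,
      (le_div_iff₀ (by positivity)).1 (min_le_right _ _)⟩
  have h1 : ∫ t, b (c * t) ^ 2 = c⁻¹ * α := by
    rw [Measure.integral_comp_mul_left (fun t => b t ^ 2), abs_of_pos (inv_pos.2 c0), smul_eq_mul]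
  have h2 : ∫ t, deriv (fun t => b (c * t)) t ^ 2 = c * β := by
    simp only [deriv_comp_mul_left, smul_eq_mul, mul_pow]
    rw [integral_const_mul, Measure.integral_comp_mul_left (fun t => deriv b t ^ 2),
      abs_of_pos (inv_pos.2 c0), smul_eq_mul]
    field_simp
    rfl
  refine ⟨fun t => b (c * t), 2 / c, hb.comp (contDiff_const.mul contDiff_id), fun t ht => ?_,
    h1 ▸ by positivity, ?_⟩
  · have h0 : b (c * t) = 0 := by
      refine b.zero_of_le_dist ?_
      rw [dist_zero_right, Real.norm_eq_abs, abs_mul, abs_of_pos c0]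
      rw [div_lt_iff₀' c0] at ht
      exact ht.le
    exact ⟨h0, IsLocalMin.deriv_eq_zero (.of_forall fun s => h0.le.trans b.nonneg)⟩
  · rw [h1, h2, mul_left_comm, ← div_eq_inv_mul, le_div_iff₀ c0]
    nlinarith [mul_nonneg c0.le hβ]

variable {ι : Type} [Fintype ι]

/-- `|∇ζ|²` for `ζ = z η`: `z1 = ∇z`, `η1 = η'` -/
def gamJ (P : Option ι → Option ι → ℝ) (z η η1 : ℝ) (z1 : ι → ℝ) : ℝ :=
  ∑ c, (η * ∑ b, P c (some b) * z1 b + z * η1 * P c none) ^ 2

/-- `E(F)`: `F1 = ∇F`, `F2 = D D F` -/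
def efJ (P : Option ι → Option ι → ℝ) (B : Option ι → Option ι → Option ι → ℝ) (F1 : ι → ℝ)
    (F2 : ι → ι → ℝ) : ℝ :=
  (∑ c, (∑ a, B a a c) ^ 2 - (∑ a, ∑ b, ∑ c, B a b c ^ 2) / 2)
    - 2 * ∑ a, ∑ b, (B a a (some b) * F1 b + P a (some b) * ∑ e, P a (some e) * F2 e b)
    - ∑ a, (∑ b, P a (some b) * F1 b) ^ 2

/-- `|H|²` -/
def hJ (B : Option ι → Option ι → Option ι → ℝ) : ℝ := ∑ c, (∑ a, B a a c) ^ 2

variable [DecidableEq ι] {d m : ℕ} {X Y : Type} [TopologicalSpace X] [MeasurableSpace X]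
  [TopologicalSpace Y] [MeasurableSpace Y] {M : Imm d ι X} {N : Imm m ι Y} {u z F : X → ℝ}

theorem gD (hu : M.Sm u) (hz : M.Sm z) (c : Option ι) : (M.gS u).D c z =
    fun q => ∑ b, (M.gS u).P c (some b) q * M.pre.D b z q := by
  have := congrArg M.val (M.isDS.gD ⟨u, hu⟩ ⟨_, hu.vv⟩ c ⟨z, hz⟩)
  simp only [map_sum, map_mul, (Imm.ghom hu).P, (Imm.ghom hu).D, M.hom.D] at this
  funext q
  simpa using congrFun this q

theorem gam_graph (hu : M.Sm u) (hz : M.Sm z) {η : ℝ → ℝ} (hη : ContDiff ℝ ∞ η) (q : X) :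
    (M.gS u).gam (fun p => z p * η (u p)) (fun p => z p * η (u p)) q =
      gamJ (fun b c => (M.gS u).P b c q) (z q) (η (u q)) (deriv η (u q))
        fun b => M.pre.D b z q := by
  have h1 := Imm.Sm.diffAt (M := M.graph u hu) hz q
  have h2 := Imm.Sm.diffAt (M := M.graph u hu) hu q
  have h3 := Imm.Sm.diffAt (M := M.graph u hu) (hu.comp hη) q
  have h4 := Imm.gam_apply (M := M.graph u hu) (fun p => z p * η (u p)) (fun p => z p * η (u p)) q
  simp only [Imm.D_mul h1 h3, Imm.D_comp h2 (hη.differentiable (by simp) _).hasDerivAt] at h4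
  simp only [Imm.graph_pre hu, gD hu hz] at h4
  rw [h4, gamJ]
  refine Finset.sum_congr rfl fun c _ => ?_
  rw [show (M.gS u).P c none q = (M.gS u).D c u q from rfl]
  ring

theorem ef_graph (hu : M.Sm u) (hF : M.Sm F) (q : X) : (M.gS u).EF F q =
    efJ (fun b c => (M.gS u).P b c q) (fun a b c => (M.gS u).D a ((M.gS u).P b c) q)
      (fun b => M.pre.D b F q) fun e b => M.pre.D e (M.pre.D b F) q := by
  have h1 := (M.graph u hu).scal_DP q
  have h2 : ∀ a, (M.graph u hu).pre.D a (fun q => ∑ b, (M.graph u hu).pre.P a (some b) q *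
      M.pre.D b F q) q = ∑ b, ((M.graph u hu).pre.P a (some b) q *
        (M.graph u hu).pre.D a (M.pre.D b F) q +
        (M.graph u hu).pre.D a ((M.graph u hu).pre.P a (some b)) q * M.pre.D b F q) := fun a => by
    rw [Imm.D_sum _ fun b _ => (((M.graph u hu).sm_P a (some b)).mul (hF.D b)).diffAt q]
    exact Finset.sum_congr rfl fun b _ => Imm.D_mul (((M.graph u hu).sm_P a (some b)).diffAt q)
      (Imm.Sm.diffAt (M := M.graph u hu) (hF.D b) q) a
  have h3 := Imm.EF_apply (M := M.graph u hu) F q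
  rw [Imm.lap_apply, Imm.gam_apply] at h3
  simp only [Imm.graph_pre hu] at h1 h2 h3
  simp only [gD hu hF, h2, gD hu (hF.D _)] at h3
  rw [h3, efJ]
  simp only [sq, add_comm (_ * M.pre.D _ F q)]
  linarith

theorem h_graph (M : Imm d ι X) (u : X → ℝ) (q : X) :
    ‖(WithLp.toLp 2 fun c => (M.gS u).H c q : E (Option ι))‖ ^ 2 =
      hJ fun a b c => (M.gS u).D a ((M.gS u).P b c) q := by
  rw [EuclideanSpace.real_norm_sq_eq, hJ]
  simp [Pre.H, Pre.lap, Pre.P]

variable {j : Y → X}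

omit [MeasurableSpace Y] in
theorem cyl_simp (N : Imm m ι Y) (q : Y) :
    N.cylP q none none = 1 ∧ (∀ a, N.cylP q none (some a) = 0) ∧ (∀ a, N.cylP q (some a) none = 0) ∧
    (∀ a b, N.cylP q (some a) (some b) = N.pre.P a b q) ∧ (∀ b c, N.cylB q none b c = 0) ∧
    (∀ a c, N.cylB q (some a) none c = 0) ∧ (∀ a b, N.cylB q (some a) (some b) none = 0) ∧
    ∀ a b c, N.cylB q (some a) (some b) (some c) = N.pre.D a (N.pre.P b c) q := by
  refine ⟨rfl, fun _ => rfl, fun _ => rfl, fun _ _ => rfl, fun _ _ => rfl, fun a c => ?_,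
    fun a b => Imm.D_const 0 a q, fun _ _ _ => rfl⟩
  cases c with
  | none => exact Imm.D_const 1 a q
  | some c => exact Imm.D_const 0 a q

theorem gam_cyl (h : ∀ q, Loc N M j q) (hz : M.Sm z) (η η1 : ℝ) (q : Y) :
    gamJ (N.cylP q) (z (j q)) η η1 (fun b => M.pre.D b z (j q)) =
      η ^ 2 * N.pre.gam (fun q => z (j q)) (fun q => z (j q)) q + η1 ^ 2 * z (j q) ^ 2 := by
  obtain ⟨a1, a2, a3, a4, -⟩ := cyl_simp N q
  simp only [gamJ, Fintype.sum_option, a1, a2, a3, a4, Imm.gam_apply, (h q).D (hz.diffAt _),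
    zero_mul, Finset.sum_const_zero, mul_zero, add_zero, zero_add, mul_one]
  rw [add_comm, Finset.mul_sum _ _ (η ^ 2)]
  congr 1
  · exact Finset.sum_congr rfl fun _ _ => by ring
  · ring

theorem ef_cyl (h : ∀ q, Loc N M j q) (hF : M.Sm F) (q : Y) :
    efJ (N.cylP q) (N.cylB q) (fun b => M.pre.D b F (j q))
      (fun e b => M.pre.D e (M.pre.D b F) (j q)) = N.pre.EF (fun q => F (j q)) q := by
  obtain ⟨-, a2, -, a4, a5, a6, a7, a8⟩ := cyl_simp N q
  have h0 : ∀ a, N.pre.D a (fun q => F (j q)) =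
      fun q => ∑ b, N.pre.P a b q * M.pre.D b F (j q) := fun a =>
    funext fun q => (h q).D (hF.diffAt _) a
  have h1 := N.scal_DP q
  have h2 : ∀ a, N.pre.D a (fun q => ∑ b, N.pre.P a b q * M.pre.D b F (j q)) q =
      ∑ b, (N.pre.D a (N.pre.P a b) q * M.pre.D b F (j q) +
        N.pre.P a b q * ∑ e, N.pre.P a e q * M.pre.D e (M.pre.D b F) (j q)) := fun a => by
    rw [Imm.D_sum _ fun b _ => ((N.sm_P a b).mul ((hF.D b).res h)).diffAt q]
    refine Finset.sum_congr rfl fun b _ => ?_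
    rw [Imm.D_mul ((N.sm_P a b).diffAt q) (((hF.D b).res h).diffAt q),
      (h q).D ((hF.D b).diffAt _), add_comm]
  rw [Imm.EF_apply, Imm.lap_apply, Imm.gam_apply]
  simp only [h0, h2, efJ, Fintype.sum_option, a2, a4, a5, a6, a7, a8, sq, zero_mul,
    Finset.sum_const_zero, add_zero, zero_add]
  linarith

theorem h_cyl (N : Imm m ι Y) (q : Y) : hJ (N.cylB q) = ‖N.Hv q‖ ^ 2 := by
  obtain ⟨-, -, -, -, a5, -, a7, a8⟩ := cyl_simp N q
  rw [EuclideanSpace.real_norm_sq_eq, hJ]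
  simp [Fintype.sum_option, a5, a7, a8, Imm.Hv, Pre.H, Pre.lap, Pre.P]

omit [DecidableEq ι] in
theorem cont_gamJ {Z : Type} [TopologicalSpace Z] {P : Z → Option ι → Option ι → ℝ}
    {z η η1 : Z → ℝ} {z1 : Z → ι → ℝ} (hP : Continuous P) (hz : Continuous z) (hη : Continuous η)
    (hη1 : Continuous η1) (hz1 : Continuous z1) :
    Continuous fun s => gamJ (P s) (z s) (η s) (η1 s) (z1 s) := by
  unfold gamJ
  fun_prop

omit [DecidableEq ι] in
theorem cont_efJ {Z : Type} [TopologicalSpace Z] {P : Z → Option ι → Option ι → ℝ}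
    {B : Z → Option ι → Option ι → Option ι → ℝ} {F1 : Z → ι → ℝ} {F2 : Z → ι → ι → ℝ}
    (hP : Continuous P) (hB : Continuous B) (h1 : Continuous F1) (h2 : Continuous F2) :
    Continuous fun s => efJ (P s) (B s) (F1 s) (F2 s) := by
  unfold efJ
  fun_prop

omit [DecidableEq ι] in
theorem cont_hJ : Continuous (hJ : (Option ι → Option ι → Option ι → ℝ) → ℝ) := by
  unfold hJ
  fun_prop

end Crest.Agent.N222.Lm

end
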